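import Vale.Agent.P141.H205.HPart

/-!
# P141, line (A): the natural price with another choice of the slot in `L²`

`NS_nf3_le_b` : the statement of `H205.NS_nf3_le` with the slot `b` in `L²` and own energies of `A`
and of `C` (exchange of the vertices `x3`, `x2`).
-/

namespace Vale.Agent.P141.H451

open Finset Matrix
open Vale.Agent.P141.PL (Pt iv hs ix mem_iv tri cx)
open Vale.Agent.P141.PL.H804 (bx3)
open Vale.Agent.P141.H736 (Path)
open Vale.Agent.P141.H958 (Aff s4 pwr PackQ lbs fl sp s4_swap path_swap pwr_swap)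
open Vale.Agent.P141.H48 (own4)
open Vale.Agent.P141.H338 (cu sum_cu_cu)
open Vale.Agent.P141.H971 (Fam0 FamR)
open Vale.Agent.P141.H498 (prf)
open Vale.Agent.P141.H677
open Vale.Agent.P141.H401 (NS)
open Vale.Agent.P141.H205 (FamK Aff_fl packQ_fl ef nf3_tri exists_emb card_rt)

noncomputable section

open scoped Classical

/-- exchange of the first two vertices -/
def sw (m : Pt) : Pt := (m.2.1, m.1, m.2.2)

theorem sw_sw (m : Pt) : sw (sw m) = m := rfl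

theorem sw_inj : Function.Injective sw := fun a b h => by
  rw [← sw_sw a, h, sw_sw]

theorem bx3_sw {N : ℕ} {R : Pt} {k : ℕ} {c : ℤ} {m : Pt} (h : m ∈ bx3 N R k c) :
    sw m ∈ bx3 N (sw R) k c := by
  unfold bx3 at h ⊢
  rw [mem_filter, mem_product, mem_product] at h ⊢
  obtain ⟨⟨h1, h2, h3⟩, h4⟩ := h
  refine ⟨⟨h2, h1, h3⟩, ?_⟩
  show m.2.1 + m.1 + m.2.2 = c
  rw [add_comm m.2.1 m.1]
  exact h4

theorem tri_sw (k : ℕ) (m : Pt) (A B C : ℤ → ℤ → ℝ) :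
    tri k (sw m) (fun y z => A z y) C B = tri k m A B C := by
  unfold tri sw
  rw [sum_comm]
  refine sum_congr rfl fun z _ => sum_congr rfl fun y _ => sum_congr rfl fun x _ => ?_
  ring

theorem own4_swap (N : ℕ) (R S : ℤ) (Q : ℕ → ℤ → ℤ → Prop) (F : ℕ → ℤ → ℤ → ℝ) :
    own4 N S R (fl Q) (sp F) = own4 N R S Q F := by
  unfold own4
  rw [Aff_fl N R S Q fun i => (4 : ℝ) ^ i.1 * s4 i.1 i.1 (sp F (i.1 + 1)) i.2.1 i.2.2]
  refine sum_congr rfl fun i _ => ?_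
  simp only
  rw [s4_swap i.1 i.1 (F (i.1 + 1)) i.2.1 i.2.2]
  rfl

/-- a scalar family with exchanged variables -/
theorem fam0_sw {N : ℕ} {R S : ℤ} {X : Finset ℤ} {Q : ℤ → ℕ → ℤ → ℤ → Prop}
    {A : ℤ → ℕ → ℤ → ℤ → ℝ} {cP G D : ℝ} (h : Fam0 N R S X Q A cP G D) :
    Fam0 N S R X (fun i => fl (Q i)) (fun i => sp (A i)) cP G D where
  path := fun i hi => path_swap (h.path i hi)
  zero := fun i hi => by
    have h0 := h.zero i hi
    funext y z
    show A i 0 z y = 0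
    rw [h0]
    rfl
  pack := fun i hi => packQ_fl (h.pack i hi)
  own := le_trans (le_of_eq (sum_congr rfl fun i _ => own4_swap N R S (Q i) (A i))) h.own
  pow := le_trans (le_of_eq (sum_congr rfl fun i _ => pwr_swap N R S (Q i) (A i))) h.pow

variable {κ : Type*} [Fintype κ] {o : ℤ} {Al : ℕ → Pt → Prop} {K : ℕ} {x : Pt}

/-- **The natural price, slot `b` in `L²`.** -/
theorem NS_nf3_le_b (ho : o = 1 ∨ o = -1) {A : ℤ → ℕ → ℤ → ℤ → ℝ}
    {b C : ℤ → ℕ → ℤ → ℤ → κ → ℝ} {QA QB QC : ℤ → ℕ → ℤ → ℤ → Prop}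
    {cP GA GB GC DA DB DC : ℝ} (hcP : 1 ≤ cP) (hGA : 0 < GA) (hGB : 0 < GB) (hGC : 0 < GC)
    (hDA : 0 < DA) (hDB : 0 < DB) (hDC : 0 < DC)
    (hA : ∀ t ∈ rt (cx K x), Fam0 K (cx K x).2.2 (cx K x).2.1 (iv K t) QA A cP GA DA)
    (hB : ∀ t ∈ rt (cx K x), FamK K (cx K x).1 (cx K x).2.1 (iv K t) QB b cP GB DB)
    (hC : ∀ t ∈ rt (cx K x), FamK K (cx K x).1 (cx K x).2.2 (iv K t) QC
      (fun x0 k x z => C x0 k z x) cP GC DC) :
    NS o Al K x (fun x0 k m => |nf3 (A x0 k) (b x0 k) (C x0 k) k m|) ≤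
      3 * (2 * (2160 * 4400) * cP * prf GA GC GB DA DC DB) := by
  obtain ⟨L, hL⟩ : ∃ L : ℕ, Fintype.card κ ≤ 2 ^ L := ⟨Fintype.card κ, Nat.lt_two_pow_self.le⟩
  obtain ⟨e, he, hm⟩ := exists_emb hL
  have key : ∀ t ∈ rt (cx K x), ∑ x0 ∈ iv K t, ∑ k ∈ Icc 1 K, ∑ m ∈ sN Al o K (cx K x) x0 k,
      |nf3 (A x0 k) (b x0 k) (C x0 k) k m| ≤ 2 * (2160 * 4400) * cP * prf GA GC GB DA DC DB := by
    intro t ht
    have h := H971.engL3 (N := K) (R := sw (rv (cx K x))) (X := iv K t)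
      (c := fun x0 => H677.cP o x0)
      (s := fun x0 k => (sN Al o K (cx K x) x0 k).image sw) (fun x0 _ => cP_pl ho x0)
      (fun x0 _ k _ m hm' => by
        obtain ⟨m', h1, rfl⟩ := mem_image.1 hm'
        exact bx3_sw (sN_sub _ _ _ _ _ _ h1)) hcP hGA hGC hGB hDA hDC hDB (fam0_sw (hA t ht))
      ((hC t ht).toR he hm) ((hB t ht).toR he hm)
    refine le_trans (le_of_eq ?_) h
    refine sum_congr rfl fun x0 _ => sum_congr rfl fun k _ => ?_
    rw [sum_image (fun a _ b _ hab => sw_inj hab), mul_sum]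
    refine sum_congr rfl fun m _ => ?_
    rw [nf3_tri he hm, abs_mul, abs_of_nonneg (show (0 : ℝ) ≤ ((2 : ℝ) ^ k)⁻¹ by positivity)]
    congr 2
    refine sum_congr rfl fun l _ => ?_
    rw [← tri_sw]
    rfl
  have h := sum_le_sum key
  rw [sum_const, card_rt, nsmul_eq_mul] at h
  exact h.trans (le_of_eq (by norm_num))

end

end Vale.Agent.P141.H451
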