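import Vale.Agent.P141.H451.BMown
import Vale.Agent.P141.H677.FDb
import Vale.Agent.P141.H401.CutUV

/-!
# P141, line (A): the moves at the own cell, class data

* `own_row` : one row `x1`, all points of the root, alive cells only;
* `bm_FD` : the first factor of the stopped part: the sum over `x0`, the scales, the nodes and the
  points of `|M b|²` is at most `3 e 2 ^ K (1 + log (1 + 2 lam1 / l))` times the mass of `u`.
-/

namespace Vale.Agent.P141.H451.BM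

open Matrix Finset
open Vale.Agent.P141.PL (Pt iv ix mem_iv ix_ix cx)
open Vale.Agent.P141.PL.H315 (Tri)
open Vale.Agent.P141.PL.H804 (bx3 sum_bx3)
open Vale.Agent.P141.H48 (BSl sst)
open Vale.Agent.P141.H420 (Tr Nd)
open Vale.Agent.P141.H483 (hd xiT)
open Vale.Agent.P141.H784 (gd)
open Vale.Agent.P141.H677 (MT MT_mulVec KT GT KT_spec tr_T GT_trace sN sN_sub rv cP rt fb kF)
open Vale.Agent.P141.H677.Sk (FamA FamV FDs lam1)
open Vale.Agent.P141.H401 (FibU mb)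

noncomputable section

open scoped Classical

set_option linter.unusedSectionVars false

theorem sum_cells {k K : ℕ} (hk : k ≤ K) (S : ℤ) (g : ℤ → ℝ) :
    ∑ x ∈ iv K S, g x = ∑ p ∈ iv (K - k) S, ∑ x ∈ iv k p, g x := by
  have h2 : ∀ x ∈ iv K S, ix k x ∈ iv (K - k) S := by
    intro x hx
    rw [mem_iv] at hx ⊢
    rw [ix_ix, Nat.add_sub_cancel' hk]
    exact hx
  rw [← sum_fiberwise_of_maps_to h2]
  refine sum_congr rfl fun p hp => sum_congr ?_ fun _ _ => rfl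
  ext x
  rw [mem_filter, mem_iv, mem_iv]
  constructor
  · exact fun h => h.2
  · intro h
    refine ⟨?_, h⟩
    rw [mem_iv, ← h, ix_ix, Nat.add_sub_cancel' hk] at hp
    exact hp

theorem iv_two (n : ℕ) (t : ℤ) (f : ℤ → ℝ) :
    ∑ x ∈ iv (n + 1) t, f x = ∑ x ∈ iv n (2 * t), f x + ∑ x ∈ iv n (2 * t + 1), f x := by
  rw [sum_cells (Nat.le_succ n) t f, Nat.succ_sub le_rfl, Nat.sub_self]
  have e : iv 1 t = {2 * t, 2 * t + 1} := by
    ext x
    rw [mem_iv]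
    unfold PL.ix
    simp only [mem_insert, mem_singleton]
    constructor
    · intro h; omega
    · intro h; omega
  rw [show Nat.succ 0 = 1 from rfl, e, sum_pair (by omega)]

theorem sum_path (φ : ℕ → ℤ → ℝ) (n : ℕ) : ∀ t : ℤ,
    ∑ i ∈ range n, ∑ x0 ∈ iv n t, φ (i + 1) (ix (i + 1) x0) = 2 ^ n * H420.tsum φ n t := by
  induction n with
  | zero => intro t; simp [H420.tsum]
  | succ n ih =>
    intro t
    rw [sum_range_succ]
    have h1 : ∑ x0 ∈ iv (n + 1) t, φ (n + 1) (ix (n + 1) x0) = 2 ^ (n + 1) * φ (n + 1) t := by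
      have e : ∀ x0 ∈ iv (n + 1) t, φ (n + 1) (ix (n + 1) x0) = φ (n + 1) t := by
        intro x0 hx
        rw [mem_iv.1 hx]
      rw [sum_congr rfl e, sum_const, PL.card_iv, nsmul_eq_mul]
      push_cast
      ring
    have h2 : ∑ i ∈ range n, ∑ x0 ∈ iv (n + 1) t, φ (i + 1) (ix (i + 1) x0) =
        ∑ i ∈ range n, ∑ x0 ∈ iv n (2 * t), φ (i + 1) (ix (i + 1) x0) +
          ∑ i ∈ range n, ∑ x0 ∈ iv n (2 * t + 1), φ (i + 1) (ix (i + 1) x0) := by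
      rw [← sum_add_distrib]
      exact sum_congr rfl fun i _ => iv_two n t (fun x0 => φ (i + 1) (ix (i + 1) x0))
    rw [h1, h2, ih, ih]
    simp only [H420.tsum]
    ring

variable {ι : Type} [Fintype ι] [DecidableEq ι]

/-- the sum over one cell of the mass moved -/
theorem cell_le {l : ℝ} (hl : 0 < l) (n : ℕ) (u : ℤ → ℤ → ι → ℝ) (x : ℤ) (k : ℕ) (p : ℤ) :
    ∑ y ∈ iv k p, (MT l (KT l u x) k p *ᵥ u x y) ⬝ᵥ (MT l (KT l u x) k p *ᵥ u x y) ≤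
      2 ^ k * gd (KT l u x) k p := by
  have h := tr_T hl n u x
  have hD : (hd (KT l u x) k p)ᵀ = hd (KT l u x) k p := by
    have := (H677.hd_herm h k p).eq
    rwa [conjTranspose_eq_transpose_of_trivial] at this
  have hG : ∑ y ∈ iv k p, vecMulVec (u x y) (u x y) = (2 : ℝ) ^ k • GT u x k p := by
    show _ = (2 : ℝ) ^ k • (((2 : ℝ) ^ k)⁻¹ • ∑ y ∈ iv k p, vecMulVec (u x y) (u x y))
    rw [smul_smul, mul_inv_cancel₀ (by positivity), one_smul]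
  have h1 := node_le hl (h.psG k p) (h.pdK k p) (h.sq k p) hD (by positivity : (0 : ℝ) ≤ 2 ^ k)
    (fun y => u x y) hG
  refine le_trans (le_of_eq ?_) h1
  refine sum_congr rfl fun y _ => ?_
  rw [MT_mulVec]
  rfl

/-- **One row.** -/
theorem own_row {l H : ℝ} (hl : 0 < l) (hH0 : 0 ≤ H) {n : ℕ} (u : ℤ → ℤ → ι → ℝ) (x : ℤ)
    {Al : ℕ → ℤ → Prop}
    (hup : ∀ k < n, ∀ p, ¬ Al (k + 1) p → ¬ Al k (2 * p) ∧ ¬ Al k (2 * p + 1))
    (hH : ∀ k ≤ n, ∀ p, Al k p → (GT u x k p).trace ≤ H) (R : ℤ) :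
    ∑ k ∈ range n, ∑ y ∈ iv n R, (if Al (k + 1) (ix (k + 1) y) then
      (MT l (KT l u x) (k + 1) (ix (k + 1) y) *ᵥ u x y) ⬝ᵥ
        (MT l (KT l u x) (k + 1) (ix (k + 1) y) *ᵥ u x y) else 0) ≤
      (1 + Real.log (1 + 2 * H / l)) * ∑ y ∈ iv n R, u x y ⬝ᵥ u x y := by
  have h := tr_T hl n u x
  have h1 := dK_al h hH0 hup hH R
  have h2 := mul_le_mul_of_nonneg_left h1 (by positivity : (0 : ℝ) ≤ 2 ^ n)
  rw [← sum_path] at h2
  have h3 : (2 : ℝ) ^ n * ((1 + Real.log (1 + 2 * H / l)) * (GT u x n R).trace) =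
      (1 + Real.log (1 + 2 * H / l)) * ∑ y ∈ iv n R, u x y ⬝ᵥ u x y := by
    rw [GT_trace]
    have : (2 : ℝ) ^ n ≠ 0 := by positivity
    field_simp
  rw [h3] at h2
  refine le_trans (sum_le_sum fun k hk => ?_) h2
  have hk' : k + 1 ≤ n := by have := mem_range.1 hk; omega
  rw [sum_cells hk' R, sum_cells hk' R]
  refine sum_le_sum fun p _ => ?_
  by_cases ha : Al (k + 1) p
  · have e1 : ∀ y ∈ iv (k + 1) p, (if Al (k + 1) (ix (k + 1) y) then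
      (MT l (KT l u x) (k + 1) (ix (k + 1) y) *ᵥ u x y) ⬝ᵥ
        (MT l (KT l u x) (k + 1) (ix (k + 1) y) *ᵥ u x y) else 0) =
        (MT l (KT l u x) (k + 1) p *ᵥ u x y) ⬝ᵥ (MT l (KT l u x) (k + 1) p *ᵥ u x y) := by
      intro y hy
      rw [mem_iv.1 hy, if_pos ha]
    have e2 : ∀ y ∈ iv (k + 1) p, (if Al (k + 1) (ix (k + 1) y) then
        gd (KT l u x) (k + 1) (ix (k + 1) y) else 0) = gd (KT l u x) (k + 1) p := by
      intro y hy
      rw [mem_iv.1 hy, if_pos ha]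
    rw [sum_congr rfl e1, sum_congr rfl e2, sum_const, PL.card_iv, nsmul_eq_mul]
    have := cell_le hl n u x (k + 1) p
    push_cast
    exact this
  · have e1 : ∀ y ∈ iv (k + 1) p, (if Al (k + 1) (ix (k + 1) y) then
      (MT l (KT l u x) (k + 1) (ix (k + 1) y) *ᵥ u x y) ⬝ᵥ
        (MT l (KT l u x) (k + 1) (ix (k + 1) y) *ᵥ u x y) else 0) = 0 := by
      intro y hy
      rw [mem_iv.1 hy, if_neg ha]
    have e2 : ∀ y ∈ iv (k + 1) p, (if Al (k + 1) (ix (k + 1) y) then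
        gd (KT l u x) (k + 1) (ix (k + 1) y) else 0) = 0 := by
      intro y hy
      rw [mem_iv.1 hy, if_neg ha]
    rw [sum_congr rfl e1, sum_congr rfl e2]

/-- rows: a map of the vectors on the left -/
theorem rows_map {S : Finset ℤ} {f g : ℤ → ι → ℝ} (h : ∀ w : ι → ℝ, ∑ y ∈ S, (f y ⬝ᵥ w) ^ 2 ≤
    ∑ y ∈ S, (g y ⬝ᵥ w) ^ 2) (M : Matrix ι ι ℝ) :
    ∑ y ∈ S, (M *ᵥ f y) ⬝ᵥ (M *ᵥ f y) ≤ ∑ y ∈ S, (M *ᵥ g y) ⬝ᵥ (M *ᵥ g y) := by
  have e : ∀ f : ℤ → ι → ℝ, ∑ y ∈ S, (M *ᵥ f y) ⬝ᵥ (M *ᵥ f y) =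
      ∑ i, ∑ y ∈ S, (f y ⬝ᵥ M i) ^ 2 := by
    intro f
    rw [sum_comm]
    refine sum_congr rfl fun y _ => ?_
    show ∑ i, (M i ⬝ᵥ f y) * (M i ⬝ᵥ f y) = _
    refine sum_congr rfl fun i _ => ?_
    rw [dotProduct_comm (f y), sq]
  rw [e, e]
  exact sum_le_sum fun i _ => h _

/-- the nodes at one `x0` are indexed by the cells of `x1` and `x2` -/
theorem nodes_le (Al : ℕ → Pt → Prop) (o : ℤ) (K : ℕ) (M : Pt) (x0 : ℤ) {k : ℕ} (hk : k ≤ K)
    {f : ℤ → ℤ → ℤ → ℝ} (hf : ∀ p x y, 0 ≤ f p x y) :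
    ∑ m ∈ sN Al o K M x0 k, ∑ x ∈ iv k m.2.2, ∑ y ∈ iv k m.2.1, f m.2.1 x y ≤
      ∑ x ∈ iv K M.1, ∑ p ∈ iv (K - k) M.2.1, ∑ y ∈ iv k p, f p x y := by
  have h1 : ∑ m ∈ sN Al o K M x0 k, ∑ x ∈ iv k m.2.2, ∑ y ∈ iv k m.2.1, f m.2.1 x y ≤
      ∑ m ∈ bx3 K (rv M) k (cP o x0 k), ∑ x ∈ iv k m.2.2, ∑ y ∈ iv k m.2.1, f m.2.1 x y :=
    sum_le_sum_of_subset_of_nonneg (sN_sub Al o K M x0 k) fun m _ _ =>
      sum_nonneg fun x _ => sum_nonneg fun y _ => hf _ _ _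
  refine h1.trans ?_
  rw [sum_bx3]
  show ∑ m1 ∈ iv (K - k) M.2.2, ∑ m2 ∈ iv (K - k) M.2.1, ∑ m3 ∈ iv (K - k) M.1,
    (if m1 + m2 + m3 = cP o x0 k then ∑ x ∈ iv k m3, ∑ y ∈ iv k m2, f m2 x y else 0) ≤ _
  rw [sum_comm]
  have h2 : ∀ m2 ∈ iv (K - k) M.2.1, ∑ m1 ∈ iv (K - k) M.2.2, ∑ m3 ∈ iv (K - k) M.1,
      (if m1 + m2 + m3 = cP o x0 k then ∑ x ∈ iv k m3, ∑ y ∈ iv k m2, f m2 x y else 0) ≤
      ∑ m3 ∈ iv (K - k) M.1, ∑ x ∈ iv k m3, ∑ y ∈ iv k m2, f m2 x y := by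
    intro m2 _
    rw [sum_comm]
    refine sum_le_sum fun m3 _ => ?_
    have h3 : ∀ m1, (if m1 + m2 + m3 = cP o x0 k then ∑ x ∈ iv k m3, ∑ y ∈ iv k m2, f m2 x y
        else 0) = if m1 = cP o x0 k - m2 - m3 then ∑ x ∈ iv k m3, ∑ y ∈ iv k m2, f m2 x y
        else 0 := by
      intro m1
      by_cases h : m1 + m2 + m3 = cP o x0 k
      · rw [if_pos h, if_pos (by linarith)]
      · rw [if_neg h, if_neg (fun h' => h (by linarith))]
    simp only [h3]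
    rw [sum_ite_eq']
    split_ifs
    · exact le_rfl
    · exact sum_nonneg fun x _ => sum_nonneg fun y _ => hf _ _ _
  refine (sum_le_sum h2).trans (le_of_eq ?_)
  rw [sum_comm' (s := iv K M.1) (t := fun _ => iv (K - k) M.2.1) (t' := iv (K - k) M.2.1)
    (s' := fun _ => iv K M.1) (by intro x y; tauto)]
  exact sum_congr rfl fun p _ => (sum_cells hk M.1 fun x => ∑ y ∈ iv k p, f p x y).symm

/-- **The first factor of the stopped part.** -/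
theorem bm_FD {q : H401.Num} {n : ℕ} {ez : ℝ} {F1 F2 F3 : ℕ → Pt → ℝ} {K : ℕ} {x : Pt}
    {s r : ℝ} {U : Tri} {g : ℤ → ℤ → ℝ} {u v : ℤ → ℤ → ι → ℝ} {A : FamA} {b C : FamV ι}
    {Q1 Q2 Q3 : ℕ → Pt → Prop} {v' : ℤ → ℤ → ι → ℝ}
    (h : FDs q n ez F1 F2 F3 K x s r U g u v A b C Q1 Q2 Q3 v') (hu : FibU q K x s r U u)
    {l : ℝ} (hl : 0 < l) (he : 0 ≤ q.e) (hlam : 0 ≤ lam1 q s r) (hKn : K ≤ n) (Al : ℕ → Pt → Prop) (o : ℤ) :
    ∑ t ∈ rt (cx K x), ∑ x0 ∈ iv K t, ∑ k ∈ range K, ∑ m ∈ sN Al o K (cx K x) x0 (k + 1),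
      ∑ x' ∈ iv (k + 1) m.2.2, ∑ y ∈ iv (k + 1) m.2.1,
        (MT l (KT l u x') (k + 1) m.2.1 *ᵥ b x0 (k + 1) x' y) ⬝ᵥ
          (MT l (KT l u x') (k + 1) m.2.1 *ᵥ b x0 (k + 1) x' y) ≤
      3 * (q.e * 2 ^ K) * ((1 + Real.log (1 + 2 * lam1 q s r / l)) *
        ∑ x' ∈ iv K (ix K x.1), ∑ y ∈ iv K (ix K x.2.1), u x' y ⬝ᵥ u x' y) := by
  set R := ix K x.2.1 with hR
  set S := ix K x.1 with hS
  -- one `x0`
  have h1 : ∀ x0, ∀ k ∈ range K, ∑ m ∈ sN Al o K (cx K x) x0 (k + 1),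
      ∑ x' ∈ iv (k + 1) m.2.2, ∑ y ∈ iv (k + 1) m.2.1,
        (MT l (KT l u x') (k + 1) m.2.1 *ᵥ b x0 (k + 1) x' y) ⬝ᵥ
          (MT l (KT l u x') (k + 1) m.2.1 *ᵥ b x0 (k + 1) x' y) ≤
      ∑ x' ∈ iv K S, ∑ y ∈ iv K R, F3 (k + 1) (x0, x', y) ^ 2 *
        (if ¬ sst q.Lm U.1 K (k + 1) x' y then
          (MT l (KT l u x') (k + 1) (ix (k + 1) y) *ᵥ u x' y) ⬝ᵥ
            (MT l (KT l u x') (k + 1) (ix (k + 1) y) *ᵥ u x' y) else 0) := by
    intro x0 k hk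
    have hk' : k + 1 ≤ K := by have := mem_range.1 hk; omega
    refine (nodes_le Al o K (cx K x) x0 hk'
      (f := fun p x' y => (MT l (KT l u x') (k + 1) p *ᵥ b x0 (k + 1) x' y) ⬝ᵥ
          (MT l (KT l u x') (k + 1) p *ᵥ b x0 (k + 1) x' y))
      fun p x y => H483.dot_nonneg _).trans ?_
    refine sum_le_sum fun x' _ => ?_
    rw [sum_cells hk' R]
    refine sum_le_sum fun p _ => ?_
    refine (rows_map (fun w => h.rowb (k + 1) hk' (k + 1) (Or.inl rfl) x0 x' p w) _).trans ?_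
    refine le_of_eq (sum_congr rfl fun y hy => ?_)
    rw [mem_iv.1 hy]
    unfold H401.mb H677.fb H677.kF
    by_cases hs : sst q.Lm U.1 K (k + 1) x' y
    · rw [if_pos (Or.inr hs), if_neg (not_not.2 hs), zero_smul, mulVec_zero, dotProduct_zero,
        mul_zero]
    · rw [if_neg (by
        rintro (h0 | h0)
        · omega
        · exact hs h0), if_pos hs, mulVec_smul, smul_dotProduct, dotProduct_smul, smul_eq_mul,
        smul_eq_mul]
      ring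
  -- the lines in `x0`
  have h2 : ∀ t : ℤ, ∀ k ∈ range K, ∀ x' y : ℤ,
      ∑ x0 ∈ iv K t, F3 (k + 1) (x0, x', y) ^ 2 ≤ q.e * 2 ^ K := by
    intro t k hk x' y
    have hk' : k < K := mem_range.1 hk
    rw [sum_cells hk'.le t]
    have h3 : ∀ p ∈ iv (K - k) t, ∑ x0 ∈ iv k p, F3 (k + 1) (x0, x', y) ^ 2 ≤ q.e * 2 ^ k :=
      fun p _ => h.B3.l0 k (by omega) p x' y
    refine (sum_le_sum h3).trans (le_of_eq ?_)
    rw [sum_const, PL.card_iv, nsmul_eq_mul]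
    push_cast
    have : (2 : ℝ) ^ K = 2 ^ (K - k) * 2 ^ k := by
      rw [← pow_add, Nat.sub_add_cancel hk'.le]
    rw [this]
    ring
  -- the rows
  have h4 : ∀ x' ∈ iv K S, ∑ k ∈ range K, ∑ y ∈ iv K R,
      (if ¬ sst q.Lm U.1 K (k + 1) x' y then
          (MT l (KT l u x') (k + 1) (ix (k + 1) y) *ᵥ u x' y) ⬝ᵥ
            (MT l (KT l u x') (k + 1) (ix (k + 1) y) *ᵥ u x' y) else 0) ≤
      (1 + Real.log (1 + 2 * lam1 q s r / l)) * ∑ y ∈ iv K R, u x' y ⬝ᵥ u x' y := by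
    intro x' hx'
    have hst := H444.FD.stP_sst q.Lm U.1 K
    have hcong : ∀ k : ℕ, ∀ y y' : ℤ, ix k y = ix k y' →
        (sst q.Lm U.1 K k x' y ↔ sst q.Lm U.1 K k x' y') := fun k y y' e =>
      ⟨fun a => hst.congr k x' x' y' y rfl e a, fun a => hst.congr k x' x' y y' rfl e.symm a⟩
    have hix : ∀ (k : ℕ) (p : ℤ), ix k (2 ^ k * p) = p := by
      intro k p
      unfold PL.ix
      exact Int.mul_ediv_cancel_left p (by positivity)
    have h5 := own_row (ι := ι) hl hlam (n := K) u x'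
      (Al := fun k p => p ∈ iv (K - k) R ∧ ¬ sst q.Lm U.1 K k x' (2 ^ k * p))
      (by
        intro k hk p hp
        have hup : ∀ c : ℤ, ix 1 c = p → ¬ (c ∈ iv (K - k) R ∧
            ¬ sst q.Lm U.1 K k x' (2 ^ k * c)) := by
          rintro c hc ⟨h1, h2⟩
          refine hp ⟨?_, fun h3 => h2 ?_⟩
          · rw [mem_iv] at h1 ⊢
            rw [← hc, ix_ix]
            rw [show 1 + (K - (k + 1)) = K - k by omega]
            exact h1
          · refine hst.mono k hk x' _ ((hcong (k + 1) _ _ ?_).1 h3)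
            rw [hix, show k + 1 = k + 1 from rfl, ← ix_ix k 1, hix, hc]
        exact ⟨hup _ (by unfold PL.ix; omega), hup _ (by unfold PL.ix; omega)⟩)
      (by
        rintro k hk p ⟨h1, h2⟩
        have hy : (2 : ℤ) ^ k * p ∈ iv K R := by
          rw [mem_iv] at h1 ⊢
          rw [show K = k + (K - k) by omega, ← ix_ix, hix]
          exact h1
        have h3 := hu k hk x' hx' _ hy h2
        rw [hix] at h3
        rw [GT_trace]
        have h4 : (0 : ℝ) < 2 ^ k := by positivity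
        rw [inv_mul_le_iff₀ h4]
        linarith) R
    refine le_trans (sum_le_sum fun k hk => sum_le_sum fun y hy => ?_) h5
    have hk' : k + 1 ≤ K := by have := mem_range.1 hk; omega
    have e1 : ix (k + 1) y ∈ iv (K - (k + 1)) R := by
      rw [mem_iv] at hy ⊢
      rw [ix_ix, Nat.add_sub_cancel' hk']
      exact hy
    have e2 : sst q.Lm U.1 K (k + 1) x' (2 ^ (k + 1) * ix (k + 1) y) ↔
        sst q.Lm U.1 K (k + 1) x' y := hcong (k + 1) _ _ (hix _ _)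
    by_cases hs : sst q.Lm U.1 K (k + 1) x' y
    · rw [if_neg (not_not.2 hs), if_neg (fun h' => h'.2 (e2.2 hs))]
    · rw [if_pos hs, if_pos ⟨e1, fun h' => hs (e2.1 h')⟩]
  -- together
  have hQ0 : ∀ k x' y, 0 ≤ (if ¬ sst q.Lm U.1 K (k + 1) x' y then
          (MT l (KT l u x') (k + 1) (ix (k + 1) y) *ᵥ u x' y) ⬝ᵥ
            (MT l (KT l u x') (k + 1) (ix (k + 1) y) *ᵥ u x' y) else 0) := by
    intro k x' y
    by_cases hs : sst q.Lm U.1 K (k + 1) x' y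
    · rw [if_neg (not_not.2 hs)]
    · rw [if_pos hs]
      exact H483.dot_nonneg _
  have he' : 0 ≤ q.e * 2 ^ K := by positivity
  have h6 : ∀ t : ℤ, ∑ x0 ∈ iv K t, ∑ k ∈ range K, ∑ m ∈ sN Al o K (cx K x) x0 (k + 1),
      ∑ x' ∈ iv (k + 1) m.2.2, ∑ y ∈ iv (k + 1) m.2.1,
        (MT l (KT l u x') (k + 1) m.2.1 *ᵥ b x0 (k + 1) x' y) ⬝ᵥ
          (MT l (KT l u x') (k + 1) m.2.1 *ᵥ b x0 (k + 1) x' y) ≤
      q.e * 2 ^ K * ((1 + Real.log (1 + 2 * lam1 q s r / l)) *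
        ∑ x' ∈ iv K S, ∑ y ∈ iv K R, u x' y ⬝ᵥ u x' y) := by
    intro t
    calc _ ≤ ∑ x0 ∈ iv K t, ∑ k ∈ range K, ∑ x' ∈ iv K S, ∑ y ∈ iv K R,
          F3 (k + 1) (x0, x', y) ^ 2 * (if ¬ sst q.Lm U.1 K (k + 1) x' y then
          (MT l (KT l u x') (k + 1) (ix (k + 1) y) *ᵥ u x' y) ⬝ᵥ
            (MT l (KT l u x') (k + 1) (ix (k + 1) y) *ᵥ u x' y) else 0) :=
          sum_le_sum fun x0 _ => sum_le_sum fun k hk => h1 x0 k hk
      _ = ∑ k ∈ range K, ∑ x' ∈ iv K S, ∑ y ∈ iv K R, (∑ x0 ∈ iv K t,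
          F3 (k + 1) (x0, x', y) ^ 2) * (if ¬ sst q.Lm U.1 K (k + 1) x' y then
          (MT l (KT l u x') (k + 1) (ix (k + 1) y) *ᵥ u x' y) ⬝ᵥ
            (MT l (KT l u x') (k + 1) (ix (k + 1) y) *ᵥ u x' y) else 0) := by
          rw [sum_comm]
          refine sum_congr rfl fun k _ => ?_
          rw [sum_comm]
          refine sum_congr rfl fun x' _ => ?_
          rw [sum_comm]
          exact sum_congr rfl fun y _ => (sum_mul _ _ _).symm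
      _ ≤ ∑ k ∈ range K, ∑ x' ∈ iv K S, ∑ y ∈ iv K R, (q.e * 2 ^ K) *
          (if ¬ sst q.Lm U.1 K (k + 1) x' y then
          (MT l (KT l u x') (k + 1) (ix (k + 1) y) *ᵥ u x' y) ⬝ᵥ
            (MT l (KT l u x') (k + 1) (ix (k + 1) y) *ᵥ u x' y) else 0) :=
          sum_le_sum fun k hk => sum_le_sum fun x' _ => sum_le_sum fun y _ =>
            mul_le_mul_of_nonneg_right (h2 t k hk x' y) (hQ0 k x' y)
      _ = (q.e * 2 ^ K) * ∑ x' ∈ iv K S, ∑ k ∈ range K, ∑ y ∈ iv K R,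
          (if ¬ sst q.Lm U.1 K (k + 1) x' y then
          (MT l (KT l u x') (k + 1) (ix (k + 1) y) *ᵥ u x' y) ⬝ᵥ
            (MT l (KT l u x') (k + 1) (ix (k + 1) y) *ᵥ u x' y) else 0) := by
          rw [sum_comm]
          simp only [mul_sum]
      _ ≤ (q.e * 2 ^ K) * ∑ x' ∈ iv K S, (1 + Real.log (1 + 2 * lam1 q s r / l)) *
          ∑ y ∈ iv K R, u x' y ⬝ᵥ u x' y :=
          mul_le_mul_of_nonneg_left (sum_le_sum h4) he'
      _ = _ := by rw [← mul_sum]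
  have h7 : (rt (cx K x)).card = 3 := by
    unfold H677.rt
    rw [Int.card_Icc]
    omega
  refine (sum_le_sum fun t _ => h6 t).trans (le_of_eq ?_)
  rw [sum_const, h7, nsmul_eq_mul]
  push_cast
  ring

end

end Vale.Agent.P141.H451.BM
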