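import Vale.Agent.P141.H451.BMcls
import Vale.Agent.P141.H58.EWn

/-!
# P141, line (A): the first factor of the stopped part, number

* `ratio_le` : `lam1 / lam ≤ (r / t) ^ 10`; `log_ratio` : its logarithm;
* `bm_num` : the first factor is at most `3 e (3 + 10 log (r / t)) s 8 ^ K`.
-/

namespace Vale.Agent.P141.H451.BM

open Matrix Finset
open Vale.Agent.P141.PL (Pt iv ix mem_iv ix_ix cx)
open Vale.Agent.P141.PL.H315 (Tri)
open Vale.Agent.P141.H677 (MT KT sN rt)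
open Vale.Agent.P141.H677.Sk (FamA FamV FDs lam1)
open Vale.Agent.P141.H401 (FibU)
open Vale.Agent.P141.H305 (Cls)

noncomputable section

open scoped Classical

set_option linter.unusedSectionVars false

theorem ratio_le {q : H401.Num} {s r : ℝ} (ht : 0 < q.t) (ht1 : q.t ≤ 1) (hs : 0 < s)
    (hr : 1 ≤ r) (he0 : 0 ≤ q.e0) : lam1 q s r / q.lam s r ≤ (r / q.t) ^ (10 : ℕ) := by
  have hr0 : 0 < r := by linarith
  have hss : 0 < √s := Real.sqrt_pos.2 hs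
  unfold H677.Sk.lam1 H401.Num.lam
  rw [div_le_iff₀ (by positivity)]
  have e1 : (r / q.t) ^ (10 : ℕ) = r ^ (10 : ℝ) * q.t ^ (-10 : ℝ) := by
    rw [div_pow, div_eq_mul_inv, ← Real.rpow_natCast r 10, ← Real.rpow_natCast q.t 10,
      ← Real.rpow_neg ht.le]
    norm_num
  have e2 : r ^ (10 : ℝ) * q.t ^ (-10 : ℝ) * (q.t ^ (2 - q.e0) * √s * r ^ q.e0) =
      (q.t ^ (-10 : ℝ) * q.t ^ (2 - q.e0)) * √s * (r ^ (10 : ℝ) * r ^ q.e0) := by ring
  rw [e1, e2, ← Real.rpow_add ht, ← Real.rpow_add hr0]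
  have h1 : q.t ^ (-8 : ℝ) ≤ q.t ^ ((-10 : ℝ) + (2 - q.e0)) :=
    Real.rpow_le_rpow_of_exponent_ge ht ht1 (by linarith)
  have h2 : r ^ (8 : ℝ) ≤ r ^ ((10 : ℝ) + q.e0) :=
    Real.rpow_le_rpow_of_exponent_le hr (by linarith)
  exact mul_le_mul (mul_le_mul_of_nonneg_right h1 hss.le) h2 (by positivity) (by positivity)

theorem log_ratio {q : H401.Num} {s r : ℝ} (ht : 0 < q.t) (ht1 : q.t ≤ 1) (hs : 0 < s)
    (hr : 1 ≤ r) (he0 : 0 ≤ q.e0) :
    1 + Real.log (1 + 2 * lam1 q s r / q.lam s r) ≤ 3 + 10 * Real.log (r / q.t) := by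
  have h1 := ratio_le ht ht1 hs hr he0
  have hq : 1 ≤ r / q.t := by rw [le_div_iff₀ ht]; linarith
  have hp : (1 : ℝ) ≤ (r / q.t) ^ (10 : ℕ) := one_le_pow₀ hq
  have hl : 0 ≤ lam1 q s r / q.lam s r := by
    have hss := Real.sqrt_nonneg s
    have hr0 : 0 ≤ r := by linarith
    unfold H677.Sk.lam1 H401.Num.lam
    positivity
  have e : 2 * lam1 q s r / q.lam s r = 2 * (lam1 q s r / q.lam s r) := by ring
  have h2 : Real.log (1 + 2 * lam1 q s r / q.lam s r) ≤ Real.log (3 * (r / q.t) ^ (10 : ℕ)) := by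
    refine Real.log_le_log ?_ ?_
    · rw [e]; positivity
    · rw [e]; linarith
  rw [Real.log_mul (by norm_num) (by positivity), Real.log_pow] at h2
  have h3 : Real.log 3 ≤ 2 := by
    have := Real.log_le_sub_one_of_pos (by norm_num : (0 : ℝ) < 3)
    linarith
  push_cast at h2
  linarith

variable {ι : Type} [Fintype ι] [DecidableEq ι]

/-- **The first factor of the stopped part, class data.** -/
theorem bm_num {q : H401.Num} {n : ℕ} {ez : ℝ} {F1 F2 F3 : ℕ → Pt → ℝ} {K : ℕ} {x : Pt}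
    {s r P : ℝ} {U : Tri} {g : ℤ → ℤ → ℝ} {u v : ℤ → ℤ → ι → ℝ} {A : FamA} {b C : FamV ι}
    {Q1 Q2 Q3 : ℕ → Pt → Prop} {v' : ℤ → ℤ → ι → ℝ}
    (h : FDs q n ez F1 F2 F3 K x s r U g u v A b C Q1 Q2 Q3 v') (hu : FibU q K x s r U u)
    (hC : Cls K x s r P U g u v) (ht : 0 < q.t) (ht1 : q.t ≤ 1) (hs : 0 < s) (hr : 1 ≤ r)
    (he0 : 0 ≤ q.e0) (he : 0 ≤ q.e) (hKn : K ≤ n) (Al : ℕ → Pt → Prop) (o : ℤ) :
    ∑ t ∈ rt (cx K x), ∑ x0 ∈ iv K t, ∑ k ∈ range K, ∑ m ∈ sN Al o K (cx K x) x0 (k + 1),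
      ∑ x' ∈ iv (k + 1) m.2.2, ∑ y ∈ iv (k + 1) m.2.1,
        (MT (q.lam s r) (KT (q.lam s r) u x') (k + 1) m.2.1 *ᵥ b x0 (k + 1) x' y) ⬝ᵥ
          (MT (q.lam s r) (KT (q.lam s r) u x') (k + 1) m.2.1 *ᵥ b x0 (k + 1) x' y) ≤
      3 * q.e * (3 + 10 * Real.log (r / q.t)) * (s * 8 ^ K) := by
  have hss : 0 < √s := Real.sqrt_pos.2 hs
  have hr0 : 0 < r := by linarith
  have hl : 0 < q.lam s r := by
    unfold H401.Num.lam
    positivity
  have hl1 : 0 ≤ lam1 q s r := by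
    unfold H677.Sk.lam1
    positivity
  refine (bm_FD h hu hl he hl1 hKn Al o).trans ?_
  have hm := H58.mass_u hC
  change ∑ x' ∈ iv K (ix K x.1), ∑ y ∈ iv K (ix K x.2.1), u x' y ⬝ᵥ u x' y ≤ s * 4 ^ K at hm
  have hL := log_ratio ht ht1 hs hr he0
  have hL0 : 0 ≤ 1 + Real.log (1 + 2 * lam1 q s r / q.lam s r) := by
    have : 0 ≤ Real.log (1 + 2 * lam1 q s r / q.lam s r) := Real.log_nonneg (by
      have : 0 ≤ 2 * lam1 q s r / q.lam s r := by positivity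
      linarith)
    linarith
  have h8 : (8 : ℝ) ^ K = 2 ^ K * 4 ^ K := by rw [← mul_pow]; norm_num
  calc _ ≤ 3 * (q.e * 2 ^ K) * ((3 + 10 * Real.log (r / q.t)) * (s * 4 ^ K)) := by
        refine mul_le_mul_of_nonneg_left ?_ (by positivity)
        exact mul_le_mul hL hm (sum_nonneg fun a _ => sum_nonneg fun b _ => H483.dot_nonneg _)
          (hL0.trans hL)
    _ = _ := by rw [h8]; ring

end

end Vale.Agent.P141.H451.BM
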