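import Vale.Agent.P141.H784.Klein
import Vale.Agent.P141.H483.MoveB

/-!
# P141, line (A): the moves at the own cell, over the alive cells of the tree

* `dK_al` : the square function of `dK` over a family of cells closed upwards, on which the traces
  are at most `H`, costs `1 + log (1 + 2 H / l)`;
* `node_le` : the mass moved at one node is at most `2 ^ k tr dK²`;
* `own_tree` : the sum over the alive nodes below the root.
-/

namespace Vale.Agent.P141.H451.BM

open Matrix Finset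
open Vale.Agent.P141.H420 (Tr Nd)
open Vale.Agent.P141.H483 (hd xiT)
open Vale.Agent.P141.H784 (ent ent_node ent_le ent_nonneg gd)

noncomputable section

open scoped Classical

variable {ι : Type*} [Fintype ι] [DecidableEq ι]

/-- the form of a positive matrix is at most its trace -/
theorem quad_tr {G : Matrix ι ι ℝ} (hG : G.PosSemidef) (v : ι → ℝ) :
    v ⬝ᵥ G *ᵥ v ≤ G.trace * (v ⬝ᵥ v) := by
  have h1 : ((v ⬝ᵥ v) • (1 : Matrix ι ι ℝ) - vecMulVec v v).PosSemidef := by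
    refine PosSemidef.of_dotProduct_mulVec_nonneg ?_ fun w => ?_
    · show _ᴴ = _
      rw [conjTranspose_eq_transpose_of_trivial, transpose_sub, transpose_smul, transpose_one,
        transpose_vecMulVec]
    · rw [star_trivial, sub_mulVec, dotProduct_sub, smul_mulVec, one_mulVec, dotProduct_smul,
        smul_eq_mul, vecMulVec_mulVec, dotProduct_smul]
      have e : (MulOpposite.op (v ⬝ᵥ w)) • (w ⬝ᵥ v) = (v ⬝ᵥ w) * (v ⬝ᵥ w) := by
        rw [dotProduct_comm w v]
        rfl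
      rw [e]
      have h2 := sum_mul_sq_le_sq_mul_sq univ v w
      have e2 : v ⬝ᵥ v = ∑ j, v j ^ 2 := by
        unfold dotProduct
        exact sum_congr rfl fun j _ => by ring
      have e3 : w ⬝ᵥ w = ∑ j, w j ^ 2 := by
        unfold dotProduct
        exact sum_congr rfl fun j _ => by ring
      have e4 : (v ⬝ᵥ w) * (v ⬝ᵥ w) = (∑ j, v j * w j) ^ 2 := by
        rw [sq]
        rfl
      rw [e2, e3, e4]
      linarith
  have h2 := H420.trace_mul_nonneg hG h1
  rw [Matrix.mul_sub, trace_sub, Matrix.mul_smul, Matrix.mul_one, trace_smul, smul_eq_mul,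
    mul_vecMulVec, trace_vecMulVec, dotProduct_comm (G *ᵥ v) v] at h2
  linarith

section Tree

variable {l H : ℝ} {n : ℕ} {G K : ℕ → ℤ → Matrix ι ι ℝ} {Al : ℕ → ℤ → Prop}

theorem ts_zero (f : ℕ → ℤ → ℝ)
    (hup : ∀ k < n, ∀ p, ¬ Al (k + 1) p → ¬ Al k (2 * p) ∧ ¬ Al k (2 * p + 1)) :
    ∀ k ≤ n, ∀ p, ¬ Al k p → H420.tsum (fun j i => if Al j i then f j i else 0) k p = 0 := by
  intro k
  induction k with
  | zero => intro _ p _; rfl
  | succ k ih =>
    intro hk p hp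
    rw [H420.tsum, if_neg hp, ih (by omega) _ (hup k (by omega) p hp).1,
      ih (by omega) _ (hup k (by omega) p hp).2]
    ring

theorem dK_al_aux (h : Tr l n G K) (hH0 : 0 ≤ H)
    (hup : ∀ k < n, ∀ p, ¬ Al (k + 1) p → ¬ Al k (2 * p) ∧ ¬ Al k (2 * p + 1))
    (hH : ∀ k ≤ n, ∀ p, Al k p → (G k p).trace ≤ H) :
    ∀ k ≤ n, ∀ p, (G k p).trace ≤ 2 * H →
      H420.tsum (fun j i => if Al j i then gd K j i else 0) k p ≤
        (1 + Real.log (1 + 2 * H / l)) * (G k p).trace - ent l (h.pdK k p).isHermitian := by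
  have key : ∀ k p, (G k p).trace ≤ 2 * H →
      ent l (h.pdK k p).isHermitian ≤ (1 + Real.log (1 + 2 * H / l)) * (G k p).trace := by
    intro k p hp
    refine ent_le h.l_pos (by linarith) (h.psG k p) (fun v => ?_) _ (h.sq k p)
    have h1 := quad_tr (h.psG k p) v
    have h2 : 0 ≤ v ⬝ᵥ v := H483.dot_nonneg v
    nlinarith
  intro k
  induction k with
  | zero =>
    intro _ p hp
    have := key 0 p hp
    show (0 : ℝ) ≤ _
    linarith
  | succ k ih =>
    intro hk p hp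
    by_cases ha : Al (k + 1) p
    · have ht := hH (k + 1) hk p ha
      have hm : (G (k + 1) p).trace = (1 / 2) * ((G k (2 * p)).trace + (G k (2 * p + 1)).trace) := by
        rw [h.mean k (by omega) p, trace_smul, trace_add, smul_eq_mul]
      have p1 := (h.psG k (2 * p)).trace_nonneg
      have p2 := (h.psG k (2 * p + 1)).trace_nonneg
      have i1 := ih (by omega) (2 * p) (by linarith)
      have i2 := ih (by omega) (2 * p + 1) (by linarith)
      have hn := ent_node (h.nd (by omega : k < n) p)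
      rw [H420.tsum, if_pos ha]
      have e : gd K (k + 1) p = (Nd.dK (K k (2 * p)) (K k (2 * p + 1)) *
          Nd.dK (K k (2 * p)) (K k (2 * p + 1))).trace := rfl
      rw [e]
      rw [hm]
      have e3 : (1 + Real.log (1 + 2 * H / l)) *
          (1 / 2 * ((G k (2 * p)).trace + (G k (2 * p + 1)).trace)) =
          1 / 2 * ((1 + Real.log (1 + 2 * H / l)) * (G k (2 * p)).trace +
            (1 + Real.log (1 + 2 * H / l)) * (G k (2 * p + 1)).trace) := by ring
      rw [e3]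
      linarith
    · rw [ts_zero (gd K) hup (k + 1) hk p ha]
      have := key (k + 1) p hp
      linarith

/-- **The square function of `dK` over the alive cells.** -/
theorem dK_al (h : Tr l n G K) (hH0 : 0 ≤ H)
    (hup : ∀ k < n, ∀ p, ¬ Al (k + 1) p → ¬ Al k (2 * p) ∧ ¬ Al k (2 * p + 1))
    (hH : ∀ k ≤ n, ∀ p, Al k p → (G k p).trace ≤ H) (p : ℤ) :
    H420.tsum (fun j i => if Al j i then gd K j i else 0) n p ≤
      (1 + Real.log (1 + 2 * H / l)) * (G n p).trace := by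
  have hl := h.l_pos
  have h0 : 0 ≤ Real.log (1 + 2 * H / l) := Real.log_nonneg (by
    have : 0 ≤ 2 * H / l := by positivity
    linarith)
  have ht := (h.psG n p).trace_nonneg
  by_cases ha : Al n p
  · have h1 := dK_al_aux h hH0 hup hH n le_rfl p (by
      have := hH n le_rfl p ha
      linarith)
    have h2 := ent_nonneg h.l_pos (h.psG n p) (h.pdK n p).isHermitian (h.sq n p)
    linarith
  · rw [ts_zero (gd K) hup n le_rfl p ha]
    positivity

/-- one node: the mass moved is at most `c tr D²` -/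
theorem node_le {D G' K' : Matrix ι ι ℝ} (hl : 0 < l) (hG' : G'.PosSemidef) (hK : K'.PosDef)
    (h : K' * K' = l • (1 : Matrix ι ι ℝ) + G') (hD : Dᵀ = D) {S : Finset ℤ} {c : ℝ}
    (hc : 0 ≤ c) (u : ℤ → ι → ℝ) (hG : ∑ y ∈ S, vecMulVec (u y) (u y) = c • G') :
    ∑ y ∈ S, (√l • (K'⁻¹ *ᵥ (D *ᵥ (K'⁻¹ *ᵥ u y)))) ⬝ᵥ (√l • (K'⁻¹ *ᵥ (D *ᵥ (K'⁻¹ *ᵥ u y)))) ≤
      c * (D * D).trace := by
  have hKt : K'ᵀ = K' := by
    have := hK.isHermitian.eq
    rwa [conjTranspose_eq_transpose_of_trivial] at this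
  have hinv : K' * K'⁻¹ = 1 := H420.mul_inv_self' hK
  have hinv' : K'⁻¹ * K' = 1 := by
    have := congrArg Matrix.transpose hinv
    rw [transpose_mul, transpose_nonsing_inv, hKt, transpose_one] at this
    exact this
  have hKit : (K'⁻¹)ᵀ = K'⁻¹ := by rw [transpose_nonsing_inv, hKt]
  -- step (a)
  have ha : ∀ w : ι → ℝ, (√l • (K'⁻¹ *ᵥ w)) ⬝ᵥ (√l • (K'⁻¹ *ᵥ w)) ≤ w ⬝ᵥ w := by
    intro w
    set z := K'⁻¹ *ᵥ w with hz
    have hw : w = K' *ᵥ z := by rw [hz, mulVec_mulVec, hinv, one_mulVec]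
    have e1 : w ⬝ᵥ w = z ⬝ᵥ (K' * K') *ᵥ z := by
      rw [hw, ← mulVec_mulVec, dotProduct_mulVec z K', ← mulVec_transpose, hKt]
    rw [e1, h, add_mulVec, dotProduct_add, smul_mulVec, one_mulVec, dotProduct_smul,
      smul_dotProduct, dotProduct_smul, smul_eq_mul, smul_eq_mul, smul_eq_mul, ← mul_assoc,
      Real.mul_self_sqrt hl.le]
    have := H420.quad_nonneg hG' z
    linarith
  have hb : ∑ y ∈ S, (D *ᵥ (K'⁻¹ *ᵥ u y)) ⬝ᵥ (D *ᵥ (K'⁻¹ *ᵥ u y)) =
      c * ((K'⁻¹ * (D * D) * K'⁻¹) * G').trace := by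
    have e1 : ∀ y, (D *ᵥ (K'⁻¹ *ᵥ u y)) ⬝ᵥ (D *ᵥ (K'⁻¹ *ᵥ u y)) =
        ((K'⁻¹ * (D * D) * K'⁻¹) * vecMulVec (u y) (u y)).trace := by
      intro y
      have e2 : ((K'⁻¹ * (D * D) * K'⁻¹) * vecMulVec (u y) (u y)).trace =
          u y ⬝ᵥ (K'⁻¹ * (D * D) * K'⁻¹) *ᵥ u y := by
        rw [mul_vecMulVec, trace_vecMulVec, dotProduct_comm]
      rw [e2, ← mulVec_mulVec, ← mulVec_mulVec, ← mulVec_mulVec, dotProduct_mulVec (u y),
        ← mulVec_transpose, hKit, dotProduct_mulVec (K'⁻¹ *ᵥ u y) D, ← mulVec_transpose, hD]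
    rw [sum_congr rfl fun y _ => e1 y, ← trace_sum, ← Matrix.mul_sum, hG, Matrix.mul_smul,
      trace_smul, smul_eq_mul]
  have hd' : ((K'⁻¹ * (D * D) * K'⁻¹) * G').trace ≤ (D * D).trace := by
    have e1 : G' = K' * K' - l • (1 : Matrix ι ι ℝ) := by rw [h]; abel
    have e2 : ((K'⁻¹ * (D * D) * K'⁻¹) * (K' * K')).trace = (D * D).trace := by
      have : (K'⁻¹ * (D * D) * K'⁻¹) * (K' * K') = K'⁻¹ * (D * D) * K' := by
        rw [Matrix.mul_assoc (K'⁻¹ * (D * D)), ← Matrix.mul_assoc K'⁻¹ K' K', hinv',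
          Matrix.one_mul]
      rw [this, Matrix.mul_assoc, trace_mul_comm, Matrix.mul_assoc, hinv, Matrix.mul_one]
    have e3 : ((K'⁻¹ * (D * D) * K'⁻¹) * (l • (1 : Matrix ι ι ℝ))).trace =
        l * ((D * K'⁻¹)ᵀ * (D * K'⁻¹)).trace := by
      rw [Matrix.mul_smul, Matrix.mul_one, trace_smul, smul_eq_mul, transpose_mul, hKit, hD]
      simp only [Matrix.mul_assoc]
    have e4 : 0 ≤ ((D * K'⁻¹)ᵀ * (D * K'⁻¹)).trace := by
      have := (posSemidef_conjTranspose_mul_self (D * K'⁻¹)).trace_nonneg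
      rwa [conjTranspose_eq_transpose_of_trivial] at this
    rw [e1, Matrix.mul_sub, trace_sub, e2, e3]
    have := mul_nonneg hl.le e4
    linarith
  calc _ ≤ ∑ y ∈ S, (D *ᵥ (K'⁻¹ *ᵥ u y)) ⬝ᵥ (D *ᵥ (K'⁻¹ *ᵥ u y)) := sum_le_sum fun y _ => ha _
    _ = c * ((K'⁻¹ * (D * D) * K'⁻¹) * G').trace := hb
    _ ≤ c * (D * D).trace := mul_le_mul_of_nonneg_left hd' hc

end Tree

end

end Vale.Agent.P141.H451.BM
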