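import Vale.Agent.P141.H736.FixBD
import Vale.Agent.P141.H329.WinS
import Vale.Agent.P141.H74.CutBC
import Vale.Agent.P141.H652.NumR
import Vale.Agent.P141.H652.NumQ
import Vale.Agent.P141.H302.BornU
import Vale.Agent.P141.H548.LagU
import Vale.Agent.P141.H989.CrB3
import Vale.Agent.P141.H886.CapC
import Vale.Agent.P141.H222.NumOf

/-!
# P141, line (A), increasing part: the leaf of the moving pair `(Bg, Cg)`

`numBC : H886.NumBC (18 * 120000) 2`, `lBCg : H408.LBCg`.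
-/

set_option linter.unusedSectionVars false
set_option linter.unusedVariables false

namespace Vale.Agent.P141.H451.PtBC

open Finset Matrix
open Vale.Agent.P075 (Ix)
open Vale.Agent.P141.PL (Pt iv ix cx mem_iv)
open Vale.Agent.P141.PL.H315 (Tri)
open Vale.Agent.P141.PL.H103 Vale.Agent.P141.H103
open Vale.Agent.P141.H48 (US ES BSl)
open Vale.Agent.P141.H305 (ClsM kapM)
open Vale.Agent.P141.H401 (StQ FibU FibP cb)
open Vale.Agent.P141.H677 (rt KT tr_T cP cP_pl)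
open Vale.Agent.P141.H652 (Th ah eb dB payS PbS)
open Vale.Agent.P141.H408
open Vale.Agent.P141.H886
open Vale.Agent.P141.H808 (cS thS)
open Vale.Agent.P141.H548 (vN oN chg kinds)
open Vale.Agent.P141.H302 (bN Pr)
open Vale.Agent.P141.H989.CrB (fCRB mB sumU_mB)
open Vale.Agent.P141.H419.WFamR
open Vale.Agent.P141.H912 (wS)
open Vale.Agent.P141.H419.PairB (gnV)
open Vale.Agent.P141.H457 (PG rs SD)
open Vale.Agent.P141.H874
open Vale.Agent.P141.H505.Sk1 (Ch eT)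

noncomputable section

open scoped Classical

/-- the number of the second slot -/
def fE : NumF := fun ι _ _ p n ez F1 F2 F3 o K x s r U g u v Q1 Q2 Q3 x0 =>
  (((∑ l ∈ range (K + 1), (3 / 4 : ℝ) ^ l * vN 0 l ι p n ez F1 F2 F3 o K x s r U g u v Q1 Q2 Q3 x0) +
    (∑ l ∈ range (K + 1), (3 / 4 : ℝ) ^ l * vN 1 l ι p n ez F1 F2 F3 o K x s r U g u v Q1 Q2 Q3 x0)) +
    ((∑ l ∈ range (K + 1), (3 / 4 : ℝ) ^ l * oN l ι p n ez F1 F2 F3 o K x s r U g u v Q1 Q2 Q3 x0) +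
    (∑ l ∈ range (K + 1), (3 / 4 : ℝ) ^ l *
      bN (l + 1) ι p n ez F1 F2 F3 o K x s r U g u v Q1 Q2 Q3 x0))) +
    (bN 0 ι p n ez F1 F2 F3 o K x s r U g u v Q1 Q2 Q3 x0 +
      fCRB mB ι p n ez F1 F2 F3 o K x s r U g u v Q1 Q2 Q3 x0)

/-- the number of the first slot -/
def fB : NumF := fun ι _ _ p n ez F1 F2 F3 o K x s r U g u v Q1 Q2 Q3 x0 =>
  dB p s r U K x u F3 Q3 x0 +
    payS (beI p r) (p.lam s r) o K (cx K x) u (fun k => H652.bS p s r U K u F3 Q3 x0 k) x0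

theorem sumU_fE : SumU 1 fE :=
  SumU.add (SumU.add (SumU.add (H548.sumU_v (Nat.zero_le 1)) (H548.sumU_v le_rfl))
    (SumU.add H548.sumU_o H302.sumU_b1)) (SumU.add H302.sumU_b0 sumU_mB)

theorem sumU_fB : SumU (-1) fB := H652.EBU

section pt

variable {ι : Type} [Fintype ι] [DecidableEq ι]
variable {p : H401.Num} {n : ℕ} {ez : ℝ} {F1 F2 F3 : ℕ → Pt → ℝ} {o : ℤ} {K : ℕ} {x : Pt}
  {s r : ℝ} {U : Tri} {g : ℤ → ℤ → ℝ} {u v : ℤ → ℤ → ι → ℝ} {Q1 Q2 Q3 : ℕ → Pt → Prop} {x0 : ℤ}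

/-- the variation -/
abbrev dS (p : H401.Num) (s r : ℝ) (o : ℤ) (K : ℕ) (x : Pt) (u : ℤ → ℤ → ι → ℝ) (x0 : ℤ) :
    ℕ → ℤ → ℤ → Matrix ι ι ℝ :=
  fun k x1 m => ah (p.lam s r) K (cx K x).2.1 (KT (p.lam s r) u x1) (o - 2) x0 x1 k m

/-- the drift -/
abbrev eS' (p : H401.Num) (s r : ℝ) (o : ℤ) (K : ℕ) (x : Pt) (u : ℤ → ℤ → ι → ℝ) (x0 : ℤ) :
    ℕ → ℤ → ℤ → Matrix ι ι ℝ :=
  fun k x1 m => eb (p.lam s r) K (cx K x).2.1 (KT (p.lam s r) u x1) (o - 2) x0 x1 (k + 1) m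

theorem beI_pos (ht : 0 < p.t) (hr : 1 ≤ r) : 0 < beI p r :=
  Real.rpow_pos_of_pos (div_pos ht (by linarith)) _

theorem vN_nonneg (ht : 0 < p.t) (hs : 0 < s) (hr : 1 ≤ r) (j q : ℕ) :
    0 ≤ vN j q ι p n ez F1 F2 F3 o K x s r U g u v Q1 Q2 Q3 x0 := by
  unfold H548.vN
  refine sum_nonneg fun k _ => sum_nonneg fun x1 _ => sum_nonneg fun z _ => ?_
  refine add_nonneg (H548.chg_nonneg ht hs hr o K x u x0 _ x1 z _) ?_
  unfold H548.kinds
  have h1 := H548.zm_nonneg ht hs hr o K x u x0 (k + q) x1 z (cS p ez U K v F2 x0 (k + j) x1 z)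
  have h2 := H548.ze_nonneg ht hs hr o K x u x0 (k + q) x1 z (cS p ez U K v F2 x0 (k + j) x1 z)
  have h3 := H548.zd_nonneg ht hs hr o K x u x0 (k + q) x1 z (cS p ez U K v F2 x0 (k + j) x1 z)
  have h4 := H548.zq_nonneg ht hs hr o K x u x0 (k + q) x1 z (cS p ez U K v F2 x0 (k + j) x1 z)
  linarith

theorem oN_nonneg (ht : 0 < p.t) (hs : 0 < s) (hr : 1 ≤ r) (q : ℕ) :
    0 ≤ oN q ι p n ez F1 F2 F3 o K x s r U g u v Q1 Q2 Q3 x0 := by
  unfold H548.oN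
  exact sum_nonneg fun x1 _ => sum_nonneg fun z _ => H302.eT_nn ht hs hr _ _ _ _

theorem bN_nonneg (ht : 0 < p.t) (hs : 0 < s) (hr : 1 ≤ r) (q : ℕ) :
    0 ≤ bN q ι p n ez F1 F2 F3 o K x s r U g u v Q1 Q2 Q3 x0 := by
  unfold H302.bN
  refine sum_nonneg fun k _ => sum_nonneg fun x1 _ => sum_nonneg fun z _ => ?_
  split_ifs
  · exact H302.eT_nn ht hs hr _ _ _ _
  · exact le_rfl

theorem crb_nonneg (ht : 0 < p.t) (hs : 0 < s) (hr : 1 ≤ r) :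
    0 ≤ fCRB mB ι p n ez F1 F2 F3 o K x s r U g u v Q1 Q2 Q3 x0 := by
  unfold H989.CrB.fCRB
  refine sum_nonneg fun k _ => sum_nonneg fun x1 _ => sum_nonneg fun z _ => ?_
  split_ifs
  · rw [H989.CrB.wE_eT]
    exact H302.eT_nn ht hs hr _ _ _ _
  · exact le_rfl

/-- a weighted sum of nonnegative numbers -/
theorem wnn {f : ℕ → ℝ} (h : ∀ l, 0 ≤ f l) : 0 ≤ ∑ l ∈ range (K + 1), (3 / 4 : ℝ) ^ l * f l :=
  sum_nonneg fun l _ => mul_nonneg (by positivity) (h l)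

/-- the first term -/
theorem w0 {f : ℕ → ℝ} (h : ∀ l, 0 ≤ f l) : f 0 ≤ ∑ l ∈ range (K + 1), (3 / 4 : ℝ) ^ l * f l := by
  have h1 := single_le_sum (f := fun l => (3 / 4 : ℝ) ^ l * f l)
    (fun l _ => mul_nonneg (by positivity) (h l)) (mem_range.2 (Nat.succ_pos K))
  simpa using h1

/-- all parts below `fE` -/
theorem parts (ht : 0 < p.t) (hs : 0 < s) (hr : 1 ≤ r) :
    0 ≤ fE ι p n ez F1 F2 F3 o K x s r U g u v Q1 Q2 Q3 x0 ∧
    (∑ l ∈ range (K + 1), (3 / 4 : ℝ) ^ l * vN 0 l ι p n ez F1 F2 F3 o K x s r U g u v Q1 Q2 Q3 x0)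
      ≤ fE ι p n ez F1 F2 F3 o K x s r U g u v Q1 Q2 Q3 x0 ∧
    vN 1 0 ι p n ez F1 F2 F3 o K x s r U g u v Q1 Q2 Q3 x0
      ≤ fE ι p n ez F1 F2 F3 o K x s r U g u v Q1 Q2 Q3 x0 ∧
    oN 0 ι p n ez F1 F2 F3 o K x s r U g u v Q1 Q2 Q3 x0
      ≤ fE ι p n ez F1 F2 F3 o K x s r U g u v Q1 Q2 Q3 x0 ∧
    (∑ l ∈ range (K + 1), (3 / 4 : ℝ) ^ l *
      bN (l + 1) ι p n ez F1 F2 F3 o K x s r U g u v Q1 Q2 Q3 x0)
      ≤ fE ι p n ez F1 F2 F3 o K x s r U g u v Q1 Q2 Q3 x0 ∧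
    bN 0 ι p n ez F1 F2 F3 o K x s r U g u v Q1 Q2 Q3 x0
      ≤ fE ι p n ez F1 F2 F3 o K x s r U g u v Q1 Q2 Q3 x0 ∧
    fCRB mB ι p n ez F1 F2 F3 o K x s r U g u v Q1 Q2 Q3 x0
      ≤ fE ι p n ez F1 F2 F3 o K x s r U g u v Q1 Q2 Q3 x0 := by
  have a1 := wnn (K := K) (f := fun l => vN 0 l ι p n ez F1 F2 F3 o K x s r U g u v Q1 Q2 Q3 x0)
    fun l => vN_nonneg ht hs hr 0 l
  have a2 := wnn (K := K) (f := fun l => vN 1 l ι p n ez F1 F2 F3 o K x s r U g u v Q1 Q2 Q3 x0)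
    fun l => vN_nonneg ht hs hr 1 l
  have a3 := wnn (K := K) (f := fun l => oN l ι p n ez F1 F2 F3 o K x s r U g u v Q1 Q2 Q3 x0)
    fun l => oN_nonneg ht hs hr l
  have a4 := wnn (K := K)
    (f := fun l => bN (l + 1) ι p n ez F1 F2 F3 o K x s r U g u v Q1 Q2 Q3 x0)
    fun l => bN_nonneg ht hs hr (l + 1)
  have a5 : 0 ≤ bN 0 ι p n ez F1 F2 F3 o K x s r U g u v Q1 Q2 Q3 x0 := bN_nonneg ht hs hr 0
  have a6 : 0 ≤ fCRB mB ι p n ez F1 F2 F3 o K x s r U g u v Q1 Q2 Q3 x0 := crb_nonneg ht hs hr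
  have b2 := w0 (K := K) (f := fun l => vN 1 l ι p n ez F1 F2 F3 o K x s r U g u v Q1 Q2 Q3 x0)
    fun l => vN_nonneg ht hs hr 1 l
  have b3 := w0 (K := K) (f := fun l => oN l ι p n ez F1 F2 F3 o K x s r U g u v Q1 Q2 Q3 x0)
    fun l => oN_nonneg ht hs hr l
  beta_reduce at a1 a2 a3 a4 b2 b3
  unfold fE
  refine ⟨?_, ?_, ?_, ?_, ?_, ?_, ?_⟩ <;> linarith

/-- the variation of one slot, one step -/
theorem Dn_chg (ht : 0 < p.t) (hs : 0 < s) (hr : 1 ≤ r) (j k q : ℕ) :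
    (beI p r)⁻¹ * Dn K (cx K x).2.2 (cx K x).1 (dS p s r o K x u x0)
        (cS p ez U K v F2 x0 (k + j)) (k + q) ≤
      ∑ x1 ∈ iv K (cx K x).1, ∑ z ∈ iv K (cx K x).2.2,
        (chg p s r o K x u x0 (k + q) x1 z (cS p ez U K v F2 x0 (k + j) x1 z) +
          kinds p s r o K x u x0 (k + q) x1 z (cS p ez U K v F2 x0 (k + j) x1 z)) := by
  unfold H419.WFamR.Dn
  rw [mul_sum]
  refine sum_le_sum fun x1 _ => ?_
  rw [mul_sum]
  refine sum_le_sum fun z _ => ?_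
  have h0 := H548.raw_le ht hs hr o K x u x0 (k + q) x1 z (cS p ez U K v F2 x0 (k + j) x1 z)
  have hb : 0 < (beI p r)⁻¹ := inv_pos.2 (beI_pos ht hr)
  have h1 := H548.zm_nonneg ht hs hr o K x u x0 (k + q) x1 z (cS p ez U K v F2 x0 (k + j) x1 z)
  have h2 := H548.ze_nonneg ht hs hr o K x u x0 (k + q) x1 z (cS p ez U K v F2 x0 (k + j) x1 z)
  have h3 := H548.zd_nonneg ht hs hr o K x u x0 (k + q) x1 z (cS p ez U K v F2 x0 (k + j) x1 z)
  have h4 := H548.zq_nonneg ht hs hr o K x u x0 (k + q) x1 z (cS p ez U K v F2 x0 (k + j) x1 z)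
  have h5 := mul_nonneg hb.le h2
  have h6 : 0 ≤ kinds p s r o K x u x0 (k + q) x1 z (cS p ez U K v F2 x0 (k + j) x1 z) := by
    unfold H548.kinds
    linarith
  unfold H548.eN at h5
  linarith

/-- the drift of one slot, one step -/
theorem En_chg (ht : 0 < p.t) (hs : 0 < s) (hr : 1 ≤ r) (j k q : ℕ) :
    (beI p r)⁻¹ * En K (cx K x).2.2 (cx K x).1 (eS' p s r o K x u x0)
        (cS p ez U K v F2 x0 (k + j)) (k + q) ≤
      ∑ x1 ∈ iv K (cx K x).1, ∑ z ∈ iv K (cx K x).2.2,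
        (chg p s r o K x u x0 (k + q) x1 z (cS p ez U K v F2 x0 (k + j) x1 z) +
          kinds p s r o K x u x0 (k + q) x1 z (cS p ez U K v F2 x0 (k + j) x1 z)) := by
  unfold H419.WFamR.En
  rw [mul_sum]
  refine sum_le_sum fun x1 _ => ?_
  rw [mul_sum]
  refine sum_le_sum fun z _ => ?_
  have h0 := H548.raw_le ht hs hr o K x u x0 (k + q) x1 z (cS p ez U K v F2 x0 (k + j) x1 z)
  have hb : 0 < (beI p r)⁻¹ := inv_pos.2 (beI_pos ht hr)
  have h1 := H548.zm_nonneg ht hs hr o K x u x0 (k + q) x1 z (cS p ez U K v F2 x0 (k + j) x1 z)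
  have h2 := H548.ze_nonneg ht hs hr o K x u x0 (k + q) x1 z (cS p ez U K v F2 x0 (k + j) x1 z)
  have h3 := H548.zd_nonneg ht hs hr o K x u x0 (k + q) x1 z (cS p ez U K v F2 x0 (k + j) x1 z)
  have h4 := H548.zq_nonneg ht hs hr o K x u x0 (k + q) x1 z (cS p ez U K v F2 x0 (k + j) x1 z)
  have h5 := mul_nonneg hb.le (H447.dot_self_nonneg (ah (p.lam s r) K (cx K x).2.1
    (KT (p.lam s r) u x1) (o - 2) x0 x1 (k + q) (ix ((k + q) + 1) z) *ᵥ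
      cS p ez U K v F2 x0 (k + j) x1 z))
  have h6 : 0 ≤ kinds p s r o K x u x0 (k + q) x1 z (cS p ez U K v F2 x0 (k + j) x1 z) := by
    unfold H548.kinds
    linarith
  linarith

theorem nmD_v (ht : 0 < p.t) (hs : 0 < s) (hr : 1 ≤ r) (q : ℕ) :
    (beI p r)⁻¹ * nmD K (cx K x).2.2 (cx K x).1 (dS p s r o K x u x0) (cS p ez U K v F2 x0) q ≤
      vN 0 q ι p n ez F1 F2 F3 o K x s r U g u v Q1 Q2 Q3 x0 := by
  unfold H419.WFamR.nmD H548.vN
  rw [mul_sum, ← range_eq_Ico]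
  exact sum_le_sum fun k _ => Dn_chg ht hs hr 0 k q

theorem nmE_v (ht : 0 < p.t) (hs : 0 < s) (hr : 1 ≤ r) (q : ℕ) :
    (beI p r)⁻¹ * nmE K (cx K x).2.2 (cx K x).1 (eS' p s r o K x u x0) (cS p ez U K v F2 x0) q ≤
      vN 0 q ι p n ez F1 F2 F3 o K x s r U g u v Q1 Q2 Q3 x0 := by
  unfold H419.WFamR.nmE H548.vN
  rw [mul_sum, ← range_eq_Ico]
  exact sum_le_sum fun k _ => En_chg ht hs hr 0 k q

theorem nmD1_v (ht : 0 < p.t) (hs : 0 < s) (hr : 1 ≤ r) :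
    (beI p r)⁻¹ * nmD K (cx K x).2.2 (cx K x).1 (dS p s r o K x u x0)
      (c1 K (cS p ez U K v F2 x0)) 0 ≤
      vN 1 0 ι p n ez F1 F2 F3 o K x s r U g u v Q1 Q2 Q3 x0 := by
  rw [nmD_c1]
  unfold H548.vN
  rw [mul_sum, ← range_eq_Ico]
  exact sum_le_sum fun k _ => Dn_chg ht hs hr 1 k 0

theorem nmE1_v (ht : 0 < p.t) (hs : 0 < s) (hr : 1 ≤ r) :
    (beI p r)⁻¹ * nmE K (cx K x).2.2 (cx K x).1 (eS' p s r o K x u x0)
      (c1 K (cS p ez U K v F2 x0)) 0 ≤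
      vN 1 0 ι p n ez F1 F2 F3 o K x s r U g u v Q1 Q2 Q3 x0 := by
  rw [nmE_c1]
  unfold H548.vN
  rw [mul_sum, ← range_eq_Ico]
  exact sum_le_sum fun k _ => En_chg ht hs hr 1 k 0

/-- the start is zero -/
theorem nmH_z (q : ℕ) (be : ℝ) (T : ℕ → ℤ → ℤ → Matrix ι ι ℝ) (R S : ℤ) :
    nmH K R S be T (cS p ez U K v F2 x0) q = 0 := by
  unfold H419.WFamR.nmH H419.WFamR.Wn
  refine sum_eq_zero fun x1 _ => sum_eq_zero fun z _ => ?_
  rw [H548.cS_zero, zero_dotProduct]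

/-- the start of the shifted path -/
theorem nmH1_o (ht : 0 < p.t) (hs : 0 < s) (hr : 1 ≤ r) :
    nmH K (cx K x).2.2 (cx K x).1 (beI p r) (H302.tS p s r o K x u x0)
      (c1 K (cS p ez U K v F2 x0)) 0 ≤
      oN 0 ι p n ez F1 F2 F3 o K x s r U g u v Q1 Q2 Q3 x0 := by
  rcases Nat.eq_zero_or_pos K with h | h
  · have h1 : nmH K (cx K x).2.2 (cx K x).1 (beI p r) (H302.tS p s r o K x u x0)
      (c1 K (cS p ez U K v F2 x0)) 0 = 0 := by
      unfold H419.WFamR.nmH H419.WFamR.Wn H419.WFamR.c1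
      rw [show min (0 + 1) K = 0 by omega]
      refine sum_eq_zero fun x1 _ => sum_eq_zero fun z _ => ?_
      rw [H548.cS_zero, zero_dotProduct]
    rw [h1]
    exact oN_nonneg ht hs hr 0
  · rw [nmH_c1 h]
    unfold H419.WFamR.Wn H548.oN
    rw [show min 0 K = 0 by omega]
    exact le_rfl

/-- **The point.** -/
theorem pt_all (ht : 0 < p.t) (ht1 : p.t ≤ 1) (he0 : 0 < p.e0) (hd : p.d ≤ 1)
    (ho : o = 1 ∨ o = -1) (hK : K ≤ n) (hs : 0 < s) (hr : 1 ≤ r)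
    (hcls : ClsM K x s r (p.L * p.t ^ (2 - p.c) * √s) (kapM p.L p.t p.a s r) U g u v)
    (q2 : BSl n ez p.cP F2 Q2) (hez : 0 < ez) {z : ℝ} {J : ℕ} (hz1 : gI p s r ≤ z)
    (hJ : (2 * cCI p s r) ^ 2 ≤ 4 ^ J * z ^ 2) :
    pBC (p.al U K) o K (cx K x) (beI p r) (p.lam s r) u (cb p s r U K u F3 Q3)
            (C1 p ez U K v F2) (tauI p s r) z x0 ≤
          18 * 120000 * ((J : ℝ) + 1) ^ 3 *
            (√(z ^ 2 * fE ι p n ez F1 F2 F3 o K x s r U g u v Q1 Q2 Q3 x0 *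
              (tauI p s r ^ 2 * fB ι p n ez F1 F2 F3 o K x s r U g u v Q1 Q2 Q3 x0)) +
            tauI p s r ^ 2 * fE ι p n ez F1 F2 F3 o K x s r U g u v Q1 Q2 Q3 x0) := by
  have hr0 : 0 < r := by linarith
  have hy : 0 < p.t / r := div_pos ht hr0
  have hth : 0 < p.th s r := H401.Num.th_pos (p := p) ht hs hr
  have hτ : 0 < tauI p s r := by
    unfold H408.tauI
    linarith
  have hz : 0 < z := (mul_pos (Real.rpow_pos_of_pos hy _) hτ).trans_le hz1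
  have hbe : 0 < beI p r := beI_pos ht hr
  have hbe1 : beI p r ≤ 1 := H548.beI_le_one ht ht1 he0.le hr
  have hl : (0 : ℝ) < p.lam s r := H401.Num.lam_pos (p := p) ht hs hr
  have hT := H652.wt_Th (fun x1 => tr_T hl K u x1) (cx K x).2.1 (o - 2) x0
  have hT2 : ∀ k x1 m, ((2 : ℝ) • (1 : Matrix ι ι ℝ) -
      Th (p.lam s r) K (cx K x).2.1 (KT (p.lam s r) u x1) (o - 2) x0 x1 k m).PosSemidef :=
    fun k x1 m => H652.Th_le_two (tr_T hl K u x1) (o - 2) x0 x1 k m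
  obtain ⟨nE, e1, e2, e3, e4, e5, e6⟩ := parts (ι := ι) (p := p) (n := n) (ez := ez) (F1 := F1)
    (F2 := F2) (F3 := F3) (o := o) (K := K) (x := x) (s := s) (r := r) (U := U) (g := g) (u := u)
    (v := v) (Q1 := Q1) (Q2 := Q2) (Q3 := Q3) (x0 := x0) ht hs hr
  have ndB : 0 ≤ dB p s r U K x u F3 Q3 x0 := H652.dB_nonneg x x0
  have npS : 0 ≤ payS (beI p r) (p.lam s r) o K (cx K x) u
      (fun k => H652.bS p s r U K u F3 Q3 x0 k) x0 := H652.payS_nonneg hbe hl _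
  have f1 : dB p s r U K x u F3 Q3 x0 ≤ fB ι p n ez F1 F2 F3 o K x s r U g u v Q1 Q2 Q3 x0 := by
    unfold fB
    linarith
  have f2 : payS (beI p r) (p.lam s r) o K (cx K x) u (fun k => H652.bS p s r U K u F3 Q3 x0 k) x0
      ≤ fB ι p n ez F1 F2 F3 o K x s r U g u v Q1 Q2 Q3 x0 := by
    unfold fB
    linarith
  have nB : 0 ≤ fB ι p n ez F1 F2 F3 o K x s r U g u v Q1 Q2 Q3 x0 := ndB.trans f1
  set E := fE ι p n ez F1 F2 F3 o K x s r U g u v Q1 Q2 Q3 x0 with hE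
  set EB := fB ι p n ez F1 F2 F3 o K x s r U g u v Q1 Q2 Q3 x0 with hEB
  have hPcR : ∀ k < K, ∀ w m, ¬ Pr (cS p ez U K v F2 x0) k w m → ∀ x1 ∈ iv k m,
      cS p ez U K v F2 x0 (k + 1) x1 w = cS p ez U K v F2 x0 k x1 w := H302.pr_not
  have hC0 : 0 ≤ cCI p s r ^ 2 := sq_nonneg _
  have hJ' : 2 * cCI p s r ^ 2 ≤ z ^ 2 * 4 ^ J := by
    have h1 : (2 * cCI p s r) ^ 2 = 4 * cCI p s r ^ 2 := by ring
    rw [h1] at hJ
    linarith
  have capc : ∀ k a j n' m, k ≤ a → a < K → j ≤ K → j ≤ k + 1 →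
      (cCI p s r ^ 2 • (1 : Matrix (Ix k × ι) (Ix k × ι) ℝ) -
        SD (beI p r) (fun a x1 i => Th (p.lam s r) K (cx K x).2.1 (KT (p.lam s r) u x1) (o - 2) x0
          x1 a i) k (a + 1) n' m *
        CP (H170.Win.cut K (cx K x).1 (cx K x).2.2 (cS p ez U K v F2 x0) j) k (a + 1) n' m *
        SD (beI p r) (fun a x1 i => Th (p.lam s r) K (cx K x).2.1 (KT (p.lam s r) u x1) (o - 2) x0
          x1 a i) k (a + 1) n' m).PosSemidef := by
    intro k a j n' m h1 h2 h3 h4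
    exact H74.CutBC.cut_cap hC0 (show k ≤ K by omega) (show a + 1 ≤ K by omega) h3
      (fun n'' m' hm hn => cS_SD he0.le ht ht1 hd hs hr hez hK hcls.toCls q2 x0
        (show k ≤ K by omega) (show k ≤ a + 1 by omega) (show a + 1 ≤ K by omega) h4 hm hn) n' m
  have main := H736.fix_BC2 (be := beI p r) (N := K)
    (T := fun k x1 m => Th (p.lam s r) K (cx K x).2.1 (KT (p.lam s r) u x1) (o - 2) x0 x1 k m)
    (e := fun k x1 m => eb (p.lam s r) K (cx K x).2.1 (KT (p.lam s r) u x1) (o - 2) x0 x1 (k + 1) m)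
    (d := fun k x1 m => ah (p.lam s r) K (cx K x).2.1 (KT (p.lam s r) u x1) (o - 2) x0 x1 k m)
    (b := H652.bS p s r U K u F3 Q3 x0)
    (c := H170.Win.cut K (cx K x).1 (cx K x).2.2 (cS p ez U K v F2 x0))
    (Pb := PbS p s r U K u F3 Q3 x0) (Pc := Pr (cS p ez U K v F2 x0))
    (C := cCI p s r ^ 2) (J := J) (R₁ := (cx K x).2.1) (S₁ := (cx K x).1) (T₁ := (cx K x).2.2)
    (cc := cP o x0) (E := E) (EB := EB) (s := z ^ 2) (q := p.th s r ^ 2) (τ := 2)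
    hbe hbe1 (by positivity) (by positivity) (by norm_num) le_rfl hT hT2
    (H652.PbS_off x0) (H74.CutBC.cut_row hPcR) (H652.bS_capk hth x0) (H652.bS_capk1 hth x0)
    (H652.bS_capN hth x0)
    (fun k a n' m h1 h2 => capc k a k n' m h1 h2 (by omega) (by omega))
    (fun k a n' m h1 h2 => capc k a (k + 1) n' m h1 h2 (by omega) le_rfl)
    hJ' (cP_pl ho x0) nE nB
    ((H652.bS_hB1 x x0).trans f1) ((H652.bS_hB2 x x0).trans f1)
    ((H652.pay_hB3 (M := cx K x) hbe hl _).trans f2)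
    ((H652.pay_hB4 (M := cx K x) hbe _).trans f2)
    (by
      rw [H74.CutBC.c1_cut, H74.CutBC.nmH_cut]
      exact (nmH1_o ht hs hr).trans e3)
    (by
      rw [H74.CutBC.c1_cut, H74.CutBC.nmD_cut]
      exact (nmD1_v ht hs hr).trans e2)
    (by
      rw [H74.CutBC.c1_cut, H74.CutBC.nmE_cut]
      exact (nmE1_v ht hs hr).trans e2)
    (by
      refine le_trans (le_of_eq ?_) e6
      unfold H989.CrB.fCRB
      refine sum_congr rfl fun k hk => sum_congr rfl fun x1 hx1 => sum_congr rfl fun z1 hz1 => ?_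
      rw [H74.CutBC.wE_cut (mem_Ico.1 hk).2 hx1 hz1]
      rfl)
    (by
      refine le_trans (le_of_eq ?_) ((H302.Wn_bN ht hs hr H302.pr_ch n F1 F3 g Q1 Q2 Q3).trans e5)
      refine sum_congr rfl fun k hk => ?_
      rw [H74.CutBC.Wn_rs_cut (mem_Ico.1 hk).2])
    (by
      rw [H74.CutBC.nmH_cut]
      refine le_trans (le_of_eq ?_) nE
      unfold H912.wS
      exact sum_eq_zero fun q _ => by rw [nmH_z, mul_zero])
    (by
      rw [H74.CutBC.nmD_cut]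
      exact (H912.wS_mono fun q => nmD_v ht hs hr q).trans e1)
    (by
      rw [H74.CutBC.nmE_cut]
      exact (H912.wS_mono fun q => nmE_v ht hs hr q).trans e1)
    (by
      rw [H74.CutBC.nmB_cut]
      exact (H912.wS_mono fun q => H302.nmB_bN ht hs hr H302.pr_ch q n F1 F3 g Q1 Q2 Q3).trans e4)
  have win := H329.WinBC.pBC_cls ht hs hr ez U o K x u v F2 F3 Q3 hτ hz x0
  refine win.trans ?_
  rw [← H74.CutBC.GW_win_cut]
  refine le_trans main ?_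
  have hth2 : p.th s r ^ 2 ≤ tauI p s r ^ 2 := by
    unfold H408.tauI
    nlinarith
  have g1 : p.th s r ^ 2 * E ≤ tauI p s r ^ 2 * E := mul_le_mul_of_nonneg_right hth2 nE
  have g2 : √(z ^ 2 * E * (p.th s r ^ 2 * EB)) ≤ √(z ^ 2 * E * (tauI p s r ^ 2 * EB)) :=
    Real.sqrt_le_sqrt (mul_le_mul_of_nonneg_left (mul_le_mul_of_nonneg_right hth2 nB)
      (mul_nonneg (sq_nonneg z) nE))
  rw [← mul_assoc (18 : ℝ)]
  exact mul_le_mul_of_nonneg_left (add_le_add g2 g1) (by positivity)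

end pt

/-- **The numbers of the pair `(Bg, Cg)`.** -/
theorem numBC : NumBC (18 * 120000) 2 :=
  H222.Of.numBC_of sumU_fE sumU_fB fun ι _ _ p n ez F1 F2 F3 o K x s r U g u v Q1 Q2 Q3 ht ht1 he0
      he1 hk3 hk31 hd hd1 hc he hcP hL ho hKn hs hr hcls q1 q2 q3 hez f1 f2 =>
    ⟨fun x0 => (parts ht hs hr).1,
      fun x0 => by
        have hl : (0 : ℝ) < p.lam s r := H401.Num.lam_pos (p := p) ht hs hr
        exact add_nonneg (H652.dB_nonneg x x0) (H652.payS_nonneg (beI_pos ht hr) hl _),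
      fun t _ x0 _ z J hz1 hz2 hJ => pt_all ht ht1 he0 hd1 ho hKn hs hr hcls q2 hez hz1 hJ⟩

/-- **The leaf of the moving pair `(Bg, Cg)`.** -/
theorem lBCg : LBCg := lbc_end (by norm_num) (by norm_num) numBC

end

end Vale.Agent.P141.H451.PtBC
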