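import Vale.Agent.P141.H401.Fin11
import Vale.Agent.P141.H451.PtBC

/-!
# P141, line (A): every exponent `r < 2`
-/

namespace Vale.Agent.P141.H451

/-- **The truncations and the limit for every `r < 2`.** -/
theorem finalAll : H397.FinalAll := H401.finalAll_of_LBCg PtBC.lBCg

end Vale.Agent.P141.H451
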