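import Vale.Agent.P141.H451.StarCS

/-!
# P141, line (A), flow part: the stopped part, first factor closed

* `bm_pts` : the moves on `b` over all points of the root; `bm_pts_num` : class data;
* `star_FD` : the Abel sums of a slot with row-level signs at most `mu` in absolute value are at
  most `√(3 e (3 + 10 log (r / t)) s 8 ^ K)` times the square root of the raw pairs `(A, mu C)`.
-/

namespace Vale.Agent.P141.H451.BM

open Matrix Finset
open Vale.Agent.P141.PL (Pt iv ix mem_iv ix_ix cx)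
open Vale.Agent.P141.PL.H315 (Tri)
open Vale.Agent.P141.H48 (BSl sst)
open Vale.Agent.P141.H420 (Tr Nd)
open Vale.Agent.P141.H677 (MT MT_mulVec KT GT KT_spec tr_T GT_trace rv cP rt fb kF)
open Vale.Agent.P141.H677.Sk (FamA FamV FDs lam1)
open Vale.Agent.P141.H401 (FibU mb)
open Vale.Agent.P141.H305 (Cls)
open Vale.Agent.P141.H103 (PA QW GW)
open Vale.Agent.P141.H743 (Cm)
open Vale.Agent.P141.H924 (slG qA)

noncomputable section

open scoped Classical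

set_option linter.unusedSectionVars false

variable {ι : Type} [Fintype ι] [DecidableEq ι]

/-- **The first factor of the stopped part.** -/
theorem bm_pts {q : H401.Num} {n : ℕ} {ez : ℝ} {F1 F2 F3 : ℕ → Pt → ℝ} {K : ℕ} {x : Pt}
    {s r : ℝ} {U : Tri} {g : ℤ → ℤ → ℝ} {u v : ℤ → ℤ → ι → ℝ} {A : FamA} {b C : FamV ι}
    {Q1 Q2 Q3 : ℕ → Pt → Prop} {v' : ℤ → ℤ → ι → ℝ}
    (h : FDs q n ez F1 F2 F3 K x s r U g u v A b C Q1 Q2 Q3 v') (hu : FibU q K x s r U u)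
    {l : ℝ} (hl : 0 < l) (he : 0 ≤ q.e) (hlam : 0 ≤ lam1 q s r) (hKn : K ≤ n) :
    ∑ t ∈ rt (cx K x), ∑ x0 ∈ iv K t, ∑ k ∈ range K, ∑ x' ∈ iv K (cx K x).1,
      ∑ y ∈ iv K (cx K x).2.1,
        (MT l (KT l u x') (k + 1) (ix (k + 1) y) *ᵥ b x0 (k + 1) x' y) ⬝ᵥ
          (MT l (KT l u x') (k + 1) (ix (k + 1) y) *ᵥ b x0 (k + 1) x' y) ≤
      3 * (q.e * 2 ^ K) * ((1 + Real.log (1 + 2 * lam1 q s r / l)) *
        ∑ x' ∈ iv K (ix K x.1), ∑ y ∈ iv K (ix K x.2.1), u x' y ⬝ᵥ u x' y) := by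
  set R := ix K x.2.1 with hR
  set S := ix K x.1 with hS
  -- one `x0`
  have h1 : ∀ x0, ∀ k ∈ range K, ∑ x' ∈ iv K S, ∑ y ∈ iv K R,
        (MT l (KT l u x') (k + 1) (ix (k + 1) y) *ᵥ b x0 (k + 1) x' y) ⬝ᵥ
          (MT l (KT l u x') (k + 1) (ix (k + 1) y) *ᵥ b x0 (k + 1) x' y) ≤
      ∑ x' ∈ iv K S, ∑ y ∈ iv K R, F3 (k + 1) (x0, x', y) ^ 2 *
        (if ¬ sst q.Lm U.1 K (k + 1) x' y then
          (MT l (KT l u x') (k + 1) (ix (k + 1) y) *ᵥ u x' y) ⬝ᵥ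
            (MT l (KT l u x') (k + 1) (ix (k + 1) y) *ᵥ u x' y) else 0) := by
    intro x0 k hk
    have hk' : k + 1 ≤ K := by have := mem_range.1 hk; omega
    refine sum_le_sum fun x' _ => ?_
    rw [sum_cells hk' R, sum_cells hk' R]
    refine sum_le_sum fun p _ => ?_
    refine le_trans (le_of_eq (sum_congr rfl fun y hy => ?_)) ((rows_map (fun w =>
      h.rowb (k + 1) hk' (k + 1) (Or.inl rfl) x0 x' p w) (MT l (KT l u x') (k + 1) p)).trans ?_)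
    · rw [mem_iv.1 hy]
    refine le_of_eq (sum_congr rfl fun y hy => ?_)
    rw [mem_iv.1 hy]
    unfold H401.mb H677.fb H677.kF
    by_cases hs : sst q.Lm U.1 K (k + 1) x' y
    · rw [if_pos (Or.inr hs), if_neg (not_not.2 hs), zero_smul, mulVec_zero, dotProduct_zero,
        mul_zero]
    · rw [if_neg (by
        rintro (h0 | h0)
        · omega
        · exact hs h0), if_pos hs, mulVec_smul, smul_dotProduct, dotProduct_smul, smul_eq_mul,
        smul_eq_mul]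
      ring
  -- the lines in `x0`
  have h2 : ∀ t : ℤ, ∀ k ∈ range K, ∀ x' y : ℤ,
      ∑ x0 ∈ iv K t, F3 (k + 1) (x0, x', y) ^ 2 ≤ q.e * 2 ^ K := by
    intro t k hk x' y
    have hk' : k < K := mem_range.1 hk
    rw [sum_cells hk'.le t]
    have h3 : ∀ p ∈ iv (K - k) t, ∑ x0 ∈ iv k p, F3 (k + 1) (x0, x', y) ^ 2 ≤ q.e * 2 ^ k :=
      fun p _ => h.B3.l0 k (by omega) p x' y
    refine (sum_le_sum h3).trans (le_of_eq ?_)
    rw [sum_const, PL.card_iv, nsmul_eq_mul]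
    push_cast
    have : (2 : ℝ) ^ K = 2 ^ (K - k) * 2 ^ k := by
      rw [← pow_add, Nat.sub_add_cancel hk'.le]
    rw [this]
    ring
  -- the rows
  have h4 : ∀ x' ∈ iv K S, ∑ k ∈ range K, ∑ y ∈ iv K R,
      (if ¬ sst q.Lm U.1 K (k + 1) x' y then
          (MT l (KT l u x') (k + 1) (ix (k + 1) y) *ᵥ u x' y) ⬝ᵥ
            (MT l (KT l u x') (k + 1) (ix (k + 1) y) *ᵥ u x' y) else 0) ≤
      (1 + Real.log (1 + 2 * lam1 q s r / l)) * ∑ y ∈ iv K R, u x' y ⬝ᵥ u x' y := by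
    intro x' hx'
    have hst := H444.FD.stP_sst q.Lm U.1 K
    have hcong : ∀ k : ℕ, ∀ y y' : ℤ, ix k y = ix k y' →
        (sst q.Lm U.1 K k x' y ↔ sst q.Lm U.1 K k x' y') := fun k y y' e =>
      ⟨fun a => hst.congr k x' x' y' y rfl e a, fun a => hst.congr k x' x' y y' rfl e.symm a⟩
    have hix : ∀ (k : ℕ) (p : ℤ), ix k (2 ^ k * p) = p := by
      intro k p
      unfold PL.ix
      exact Int.mul_ediv_cancel_left p (by positivity)
    have h5 := own_row (ι := ι) hl hlam (n := K) u x'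
      (Al := fun k p => p ∈ iv (K - k) R ∧ ¬ sst q.Lm U.1 K k x' (2 ^ k * p))
      (by
        intro k hk p hp
        have hup : ∀ c : ℤ, ix 1 c = p → ¬ (c ∈ iv (K - k) R ∧
            ¬ sst q.Lm U.1 K k x' (2 ^ k * c)) := by
          rintro c hc ⟨h1, h2⟩
          refine hp ⟨?_, fun h3 => h2 ?_⟩
          · rw [mem_iv] at h1 ⊢
            rw [← hc, ix_ix]
            rw [show 1 + (K - (k + 1)) = K - k by omega]
            exact h1
          · refine hst.mono k hk x' _ ((hcong (k + 1) _ _ ?_).1 h3)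
            rw [hix, show k + 1 = k + 1 from rfl, ← ix_ix k 1, hix, hc]
        exact ⟨hup _ (by unfold PL.ix; omega), hup _ (by unfold PL.ix; omega)⟩)
      (by
        rintro k hk p ⟨h1, h2⟩
        have hy : (2 : ℤ) ^ k * p ∈ iv K R := by
          rw [mem_iv] at h1 ⊢
          rw [show K = k + (K - k) by omega, ← ix_ix, hix]
          exact h1
        have h3 := hu k hk x' hx' _ hy h2
        rw [hix] at h3
        rw [GT_trace]
        have h4 : (0 : ℝ) < 2 ^ k := by positivity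
        rw [inv_mul_le_iff₀ h4]
        linarith) R
    refine le_trans (sum_le_sum fun k hk => sum_le_sum fun y hy => ?_) h5
    have hk' : k + 1 ≤ K := by have := mem_range.1 hk; omega
    have e1 : ix (k + 1) y ∈ iv (K - (k + 1)) R := by
      rw [mem_iv] at hy ⊢
      rw [ix_ix, Nat.add_sub_cancel' hk']
      exact hy
    have e2 : sst q.Lm U.1 K (k + 1) x' (2 ^ (k + 1) * ix (k + 1) y) ↔
        sst q.Lm U.1 K (k + 1) x' y := hcong (k + 1) _ _ (hix _ _)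
    by_cases hs : sst q.Lm U.1 K (k + 1) x' y
    · rw [if_neg (not_not.2 hs), if_neg (fun h' => h'.2 (e2.2 hs))]
    · rw [if_pos hs, if_pos ⟨e1, fun h' => hs (e2.1 h')⟩]
  -- together
  have hQ0 : ∀ k x' y, 0 ≤ (if ¬ sst q.Lm U.1 K (k + 1) x' y then
          (MT l (KT l u x') (k + 1) (ix (k + 1) y) *ᵥ u x' y) ⬝ᵥ
            (MT l (KT l u x') (k + 1) (ix (k + 1) y) *ᵥ u x' y) else 0) := by
    intro k x' y
    by_cases hs : sst q.Lm U.1 K (k + 1) x' y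
    · rw [if_neg (not_not.2 hs)]
    · rw [if_pos hs]
      exact H483.dot_nonneg _
  have he' : 0 ≤ q.e * 2 ^ K := by positivity
  have h6 : ∀ t : ℤ, ∑ x0 ∈ iv K t, ∑ k ∈ range K, ∑ x' ∈ iv K S, ∑ y ∈ iv K R,
        (MT l (KT l u x') (k + 1) (ix (k + 1) y) *ᵥ b x0 (k + 1) x' y) ⬝ᵥ
          (MT l (KT l u x') (k + 1) (ix (k + 1) y) *ᵥ b x0 (k + 1) x' y) ≤
      q.e * 2 ^ K * ((1 + Real.log (1 + 2 * lam1 q s r / l)) *
        ∑ x' ∈ iv K S, ∑ y ∈ iv K R, u x' y ⬝ᵥ u x' y) := by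
    intro t
    calc _ ≤ ∑ x0 ∈ iv K t, ∑ k ∈ range K, ∑ x' ∈ iv K S, ∑ y ∈ iv K R,
          F3 (k + 1) (x0, x', y) ^ 2 * (if ¬ sst q.Lm U.1 K (k + 1) x' y then
          (MT l (KT l u x') (k + 1) (ix (k + 1) y) *ᵥ u x' y) ⬝ᵥ
            (MT l (KT l u x') (k + 1) (ix (k + 1) y) *ᵥ u x' y) else 0) :=
          sum_le_sum fun x0 _ => sum_le_sum fun k hk => h1 x0 k hk
      _ = ∑ k ∈ range K, ∑ x' ∈ iv K S, ∑ y ∈ iv K R, (∑ x0 ∈ iv K t,
          F3 (k + 1) (x0, x', y) ^ 2) * (if ¬ sst q.Lm U.1 K (k + 1) x' y then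
          (MT l (KT l u x') (k + 1) (ix (k + 1) y) *ᵥ u x' y) ⬝ᵥ
            (MT l (KT l u x') (k + 1) (ix (k + 1) y) *ᵥ u x' y) else 0) := by
          rw [sum_comm]
          refine sum_congr rfl fun k _ => ?_
          rw [sum_comm]
          refine sum_congr rfl fun x' _ => ?_
          rw [sum_comm]
          exact sum_congr rfl fun y _ => (sum_mul _ _ _).symm
      _ ≤ ∑ k ∈ range K, ∑ x' ∈ iv K S, ∑ y ∈ iv K R, (q.e * 2 ^ K) *
          (if ¬ sst q.Lm U.1 K (k + 1) x' y then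
          (MT l (KT l u x') (k + 1) (ix (k + 1) y) *ᵥ u x' y) ⬝ᵥ
            (MT l (KT l u x') (k + 1) (ix (k + 1) y) *ᵥ u x' y) else 0) :=
          sum_le_sum fun k hk => sum_le_sum fun x' _ => sum_le_sum fun y _ =>
            mul_le_mul_of_nonneg_right (h2 t k hk x' y) (hQ0 k x' y)
      _ = (q.e * 2 ^ K) * ∑ x' ∈ iv K S, ∑ k ∈ range K, ∑ y ∈ iv K R,
          (if ¬ sst q.Lm U.1 K (k + 1) x' y then
          (MT l (KT l u x') (k + 1) (ix (k + 1) y) *ᵥ u x' y) ⬝ᵥ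
            (MT l (KT l u x') (k + 1) (ix (k + 1) y) *ᵥ u x' y) else 0) := by
          rw [sum_comm]
          simp only [mul_sum]
      _ ≤ (q.e * 2 ^ K) * ∑ x' ∈ iv K S, (1 + Real.log (1 + 2 * lam1 q s r / l)) *
          ∑ y ∈ iv K R, u x' y ⬝ᵥ u x' y :=
          mul_le_mul_of_nonneg_left (sum_le_sum h4) he'
      _ = _ := by rw [← mul_sum]
  have h7 : (rt (cx K x)).card = 3 := by
    unfold H677.rt
    rw [Int.card_Icc]
    omega
  refine (sum_le_sum fun t _ => h6 t).trans (le_of_eq ?_)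
  rw [sum_const, h7, nsmul_eq_mul]
  push_cast
  ring

/-- **The moves on `b`, class data.** -/
theorem bm_pts_num {q : H401.Num} {n : ℕ} {ez : ℝ} {F1 F2 F3 : ℕ → Pt → ℝ} {K : ℕ} {x : Pt}
    {s r P : ℝ} {U : Tri} {g : ℤ → ℤ → ℝ} {u v : ℤ → ℤ → ι → ℝ} {A : FamA} {b C : FamV ι}
    {Q1 Q2 Q3 : ℕ → Pt → Prop} {v' : ℤ → ℤ → ι → ℝ}
    (h : FDs q n ez F1 F2 F3 K x s r U g u v A b C Q1 Q2 Q3 v') (hu : FibU q K x s r U u)
    (hC : Cls K x s r P U g u v) (ht : 0 < q.t) (ht1 : q.t ≤ 1) (hs : 0 < s) (hr : 1 ≤ r)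
    (he0 : 0 ≤ q.e0) (he : 0 ≤ q.e) (hKn : K ≤ n) :
    ∑ t ∈ rt (cx K x), ∑ x0 ∈ iv K t, ∑ k ∈ range K, ∑ x' ∈ iv K (cx K x).1,
      ∑ y ∈ iv K (cx K x).2.1,
        (MT (q.lam s r) (KT (q.lam s r) u x') (k + 1) (ix (k + 1) y) *ᵥ b x0 (k + 1) x' y) ⬝ᵥ
          (MT (q.lam s r) (KT (q.lam s r) u x') (k + 1) (ix (k + 1) y) *ᵥ b x0 (k + 1) x' y) ≤
      3 * q.e * (3 + 10 * Real.log (r / q.t)) * (s * 8 ^ K) := by
  have hss : 0 < √s := Real.sqrt_pos.2 hs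
  have hr0 : 0 < r := by linarith
  have hl : 0 < q.lam s r := by
    unfold H401.Num.lam
    positivity
  have hl1 : 0 ≤ lam1 q s r := by
    unfold H677.Sk.lam1
    positivity
  refine (bm_pts h hu hl he hl1 hKn).trans ?_
  have hm := H58.mass_u hC
  change ∑ x' ∈ iv K (ix K x.1), ∑ y ∈ iv K (ix K x.2.1), u x' y ⬝ᵥ u x' y ≤ s * 4 ^ K at hm
  have hL := log_ratio ht ht1 hs hr he0
  have hL0 : 0 ≤ 1 + Real.log (1 + 2 * lam1 q s r / q.lam s r) := by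
    have : 0 ≤ Real.log (1 + 2 * lam1 q s r / q.lam s r) := Real.log_nonneg (by
      have : 0 ≤ 2 * lam1 q s r / q.lam s r := by positivity
      linarith)
    linarith
  have h8 : (8 : ℝ) ^ K = 2 ^ K * 4 ^ K := by rw [← mul_pow]; norm_num
  calc _ ≤ 3 * (q.e * 2 ^ K) * ((3 + 10 * Real.log (r / q.t)) * (s * 4 ^ K)) := by
        refine mul_le_mul_of_nonneg_left ?_ (by positivity)
        exact mul_le_mul hL hm (sum_nonneg fun a _ => sum_nonneg fun b _ => H483.dot_nonneg _)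
          (hL0.trans hL)
    _ = _ := by rw [h8]; ring

/-- **The stopped part.** Any row-level signs `S`, `|S| ≤ mu`. -/
theorem star_FD {q : H401.Num} {n : ℕ} {ez : ℝ} {F1 F2 F3 : ℕ → Pt → ℝ} {K : ℕ} {x : Pt}
    {s r P : ℝ} {U : Tri} {g : ℤ → ℤ → ℝ} {u v : ℤ → ℤ → ι → ℝ} {A : FamA} {b C : FamV ι}
    {Q1 Q2 Q3 : ℕ → Pt → Prop} {v' : ℤ → ℤ → ι → ℝ}
    (h : FDs q n ez F1 F2 F3 K x s r U g u v A b C Q1 Q2 Q3 v') (hu : FibU q K x s r U u)
    (hC : Cls K x s r P U g u v) (ht : 0 < q.t) (ht1 : q.t ≤ 1) (hs : 0 < s) (hr : 1 ≤ r)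
    (he0 : 0 ≤ q.e0) (he : 0 ≤ q.e) (hKn : K ≤ n) (o : ℤ)
    (S mu : ℤ → ℕ → ℤ → ℤ → ℝ) (hS : ∀ x k a b, |S x k a b| ≤ mu x k a b) :
    qA o K (cx K x) (slG S o (q.lam s r) K (cx K x) u) A b C ≤
      √(3 * q.e * (3 + 10 * Real.log (r / q.t)) * (s * 8 ^ K)) *
      √(∑ t ∈ rt (cx K x), ∑ x0 ∈ iv K t, ∑ k ∈ range K,
        GW K (cx K x).2.1 (cx K x).2.2 (cx K x).1 (k + 1) (cP o x0 (k + 1)) (fun n2 n1 m =>
          (PA (fun y z => A x0 (k + 1) z y) (k + 1) (k + 1) n2 m * (PL.H588.hd (k + 1) *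
            QW (k + 1) (k + 1) (fun x z => Cm mu C x0 (k + 1) z x)
              (fun _ => (1 : Matrix ι ι ℝ)) n1 m * PL.H588.hd (k + 1))).trace)) := by
  have hss : 0 < √s := Real.sqrt_pos.2 hs
  have hr0 : 0 < r := by linarith
  have hl : 0 < q.lam s r := by
    unfold H401.Num.lam
    positivity
  refine (Star.qA_cs S mu hS o hl K (cx K x) u A b C).trans ?_
  exact mul_le_mul_of_nonneg_right (Real.sqrt_le_sqrt (bm_pts_num h hu hC ht ht1 hs hr he0 he hKn))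
    (Real.sqrt_nonneg _)

end

end Vale.Agent.P141.H451.BM
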