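import Vale.Agent.P141.H924.RowAb
import Vale.Agent.P141.H576.GlueW
import Vale.Agent.P141.H103.MidK
import Vale.Agent.P141.H771.VarB
import Vale.Agent.P141.H451.BMnum
import Vale.Agent.P141.H743.StopC

/-!
# P141, line (A), flow part: the Abel sums of a slot with row-level signs, absolute values

* `node_tr` : the raw pair at one node as a sum of squares;
* `qA_cs` : the Abel sums of the slot `slG S` are at most the square root of the moves on `b` times
  the square root of the raw pairs `(A, S C)` at the hub `x3`.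
-/

namespace Vale.Agent.P141.H451.Star

open Finset Matrix
open Vale.Agent.P141.PL (Pt iv hs ix mem_iv ix_ix cb mem_cb cx)
open Vale.Agent.P075 (Ix val)
open Vale.Agent.P141.PL.H588 (sum_iv hd smp Xg)
open Vale.Agent.P141.H103 (PA QW GW)
open Vale.Agent.P141.H677 (GA MT KT GT rt rv cP tr_T)
open Vale.Agent.P141.H677.Sk
open Vale.Agent.P141.H352 (In p)
open Vale.Agent.P141.H841 (Rm Lm)
open Vale.Agent.P141.H58 (MxR)
open Vale.Agent.P141.H924 (slG qA)
open Vale.Agent.P141.H451.BM (sum_cells)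
open Vale.Agent.P141.H743 (Cm)

noncomputable section

open scoped Classical

set_option linter.unusedSectionVars false

variable {ι : Type} [Fintype ι] [DecidableEq ι]

theorem sum_iv_vec (k : ℕ) (m : ℤ) (f : ℤ → ι → ℝ) :
    ∑ x ∈ iv k m, f x = ∑ i : Ix k, f (2 ^ k * m + val k i) := by
  funext a
  rw [Finset.sum_apply, Finset.sum_apply]
  exact sum_iv k m fun x => f x a

/-- the raw pair at one node as a sum of squares -/
theorem node_tr {k : ℕ} (hk : 1 ≤ k) (A : ℤ → ℤ → ℝ) (c : ℤ → ℤ → ι → ℝ) (n2 n1 m : ℤ) :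
    (4 : ℝ) ^ k * (PA A k k n2 m * (hd k * QW k k c (fun _ => (1 : Matrix ι ι ℝ)) n1 m *
      hd k)).trace = ((4 : ℝ) ^ k)⁻¹ * ∑ x ∈ iv k n1, ∑ y ∈ iv k n2,
        (∑ z ∈ iv k m, (hs k z * A y z) • c x z) ⬝ᵥ (∑ z ∈ iv k m, (hs k z * A y z) • c x z) := by
  have hP : ∀ i j : Ix k, PA A k k n2 m i j = ((2 : ℝ) ^ k * 2 ^ k)⁻¹ *
      ∑ y ∈ iv k n2, A y (2 ^ k * m + val k i) * A y (2 ^ k * m + val k j) := by
    intro i j
    rw [sum_iv]
    rfl
  have hQ : ∀ i j : Ix k, (hd k * QW k k c (fun _ => (1 : Matrix ι ι ℝ)) n1 m * hd k) j i =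
      hs k (2 ^ k * m + val k j) * (((2 : ℝ) ^ k * 2 ^ k)⁻¹ * ∑ x ∈ iv k n1,
        c x (2 ^ k * m + val k j) ⬝ᵥ c x (2 ^ k * m + val k i)) * hs k (2 ^ k * m + val k i) := by
    intro i j
    rw [H576.hd_eq hk m, Matrix.mul_diagonal, Matrix.diagonal_mul]
    unfold H103.QW
    simp only [one_mulVec]
  have e4 : (4 : ℝ) ^ k = 2 ^ k * 2 ^ k := by rw [← mul_pow]; norm_num
  have hL : (PA A k k n2 m * (hd k * QW k k c (fun _ => (1 : Matrix ι ι ℝ)) n1 m *
      hd k)).trace = ((4 : ℝ) ^ k)⁻¹ * ((4 : ℝ) ^ k)⁻¹ * ∑ i : Ix k, ∑ j : Ix k,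
      ∑ x ∈ iv k n1, ∑ y ∈ iv k n2, (hs k (2 ^ k * m + val k i) * A y (2 ^ k * m + val k i)) *
        ((hs k (2 ^ k * m + val k j) * A y (2 ^ k * m + val k j)) *
        (c x (2 ^ k * m + val k i) ⬝ᵥ c x (2 ^ k * m + val k j))) := by
    rw [Matrix.trace, mul_sum]
    refine sum_congr rfl fun i _ => ?_
    rw [diag_apply, Matrix.mul_apply, mul_sum]
    refine sum_congr rfl fun j _ => ?_
    rw [hP, hQ, e4]
    have e1 : ∑ x ∈ iv k n1, ∑ y ∈ iv k n2,
        (hs k (2 ^ k * m + val k i) * A y (2 ^ k * m + val k i)) *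
        ((hs k (2 ^ k * m + val k j) * A y (2 ^ k * m + val k j)) *
        (c x (2 ^ k * m + val k i) ⬝ᵥ c x (2 ^ k * m + val k j))) =
        hs k (2 ^ k * m + val k i) * hs k (2 ^ k * m + val k j) *
        ((∑ y ∈ iv k n2, A y (2 ^ k * m + val k i) * A y (2 ^ k * m + val k j)) *
        ∑ x ∈ iv k n1, c x (2 ^ k * m + val k j) ⬝ᵥ c x (2 ^ k * m + val k i)) := by
      rw [sum_mul_sum, sum_comm, mul_sum]
      refine sum_congr rfl fun y _ => ?_
      rw [mul_sum]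
      refine sum_congr rfl fun x _ => ?_
      rw [dotProduct_comm (c x (2 ^ k * m + val k j))]
      ring
    rw [e1]
    ring
  have hR : ∑ x ∈ iv k n1, ∑ y ∈ iv k n2,
        (∑ z ∈ iv k m, (hs k z * A y z) • c x z) ⬝ᵥ (∑ z ∈ iv k m, (hs k z * A y z) • c x z) =
      ∑ i : Ix k, ∑ j : Ix k,
      ∑ x ∈ iv k n1, ∑ y ∈ iv k n2, (hs k (2 ^ k * m + val k i) * A y (2 ^ k * m + val k i)) *
        ((hs k (2 ^ k * m + val k j) * A y (2 ^ k * m + val k j)) *
        (c x (2 ^ k * m + val k i) ⬝ᵥ c x (2 ^ k * m + val k j))) := by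
    have h1 : ∀ x y, (∑ z ∈ iv k m, (hs k z * A y z) • c x z) ⬝ᵥ
        (∑ z ∈ iv k m, (hs k z * A y z) • c x z) =
        ∑ i : Ix k, ∑ j : Ix k, (hs k (2 ^ k * m + val k i) * A y (2 ^ k * m + val k i)) *
        ((hs k (2 ^ k * m + val k j) * A y (2 ^ k * m + val k j)) *
        (c x (2 ^ k * m + val k i) ⬝ᵥ c x (2 ^ k * m + val k j))) := by
      intro x y
      rw [sum_iv_vec k m (fun z => (hs k z * A y z) • c x z), sum_dotProduct]
      refine sum_congr rfl fun i _ => ?_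
      rw [dotProduct_sum]
      refine sum_congr rfl fun j _ => ?_
      rw [smul_dotProduct, dotProduct_smul, smul_eq_mul, smul_eq_mul]
    simp only [h1]
    have h2 : ∀ x, ∑ y ∈ iv k n2, ∑ i : Ix k, ∑ j : Ix k,
        (hs k (2 ^ k * m + val k i) * A y (2 ^ k * m + val k i)) *
        ((hs k (2 ^ k * m + val k j) * A y (2 ^ k * m + val k j)) *
        (c x (2 ^ k * m + val k i) ⬝ᵥ c x (2 ^ k * m + val k j))) =
        ∑ i : Ix k, ∑ j : Ix k, ∑ y ∈ iv k n2,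
        (hs k (2 ^ k * m + val k i) * A y (2 ^ k * m + val k i)) *
        ((hs k (2 ^ k * m + val k j) * A y (2 ^ k * m + val k j)) *
        (c x (2 ^ k * m + val k i) ⬝ᵥ c x (2 ^ k * m + val k j))) := by
      intro x
      rw [sum_comm]
      exact sum_congr rfl fun i _ => sum_comm
    simp only [h2]
    rw [sum_comm]
    exact sum_congr rfl fun i _ => sum_comm
  rw [hL, hR]
  have : (4 : ℝ) ^ k ≠ 0 := by positivity
  field_simp

/-- the sum over the planes, outer cells first -/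
theorem plane_swap (X Y Z : Finset ℤ) (c : ℤ) (g : ℤ → ℤ → ℤ → ℝ) :
    ∑ m ∈ Z, ∑ n ∈ Y, (if c - m - n ∈ X then g n (c - m - n) m else 0) =
      ∑ n1 ∈ X, ∑ n ∈ Y, (if c - n1 - n ∈ Z then g n n1 (c - n1 - n) else 0) := by
  have h1 : ∀ m n, (if c - m - n ∈ X then g n (c - m - n) m else 0) =
      ∑ n1 ∈ X, if n1 = c - m - n then g n n1 m else 0 := by
    intro m n
    rw [sum_ite_eq']
  have h2 : ∀ n1 n, (if c - n1 - n ∈ Z then g n n1 (c - n1 - n) else 0) =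
      ∑ m ∈ Z, if n1 = c - m - n then g n n1 m else 0 := by
    intro n1 n
    have e : ∀ m : ℤ, (if n1 = c - m - n then g n n1 m else 0) =
        if m = c - n1 - n then g n n1 m else 0 := by
      intro m
      by_cases h : n1 = c - m - n
      · rw [if_pos h, if_pos (by linarith)]
      · rw [if_neg h, if_neg (fun h' => h (by linarith))]
    rw [sum_congr rfl fun m _ => e m, sum_ite_eq']
  calc ∑ m ∈ Z, ∑ n ∈ Y, (if c - m - n ∈ X then g n (c - m - n) m else 0)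
      = ∑ m ∈ Z, ∑ n ∈ Y, ∑ n1 ∈ X, (if n1 = c - m - n then g n n1 m else 0) :=
        sum_congr rfl fun m _ => sum_congr rfl fun n _ => h1 m n
    _ = ∑ m ∈ Z, ∑ n1 ∈ X, ∑ n ∈ Y, (if n1 = c - m - n then g n n1 m else 0) :=
        sum_congr rfl fun m _ => sum_comm
    _ = ∑ n1 ∈ X, ∑ m ∈ Z, ∑ n ∈ Y, (if n1 = c - m - n then g n n1 m else 0) := sum_comm
    _ = ∑ n1 ∈ X, ∑ n ∈ Y, ∑ m ∈ Z, (if n1 = c - m - n then g n n1 m else 0) :=
        sum_congr rfl fun n1 _ => sum_comm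
    _ = _ := sum_congr rfl fun n1 _ => sum_congr rfl fun n _ => (h2 n1 n).symm

/-- the inner sum of the second factor -/
def Vp (A : ℤ → ℤ → ℝ) (c : ℤ → ℤ → ι → ℝ) (K : ℕ) (T : ℤ) (k : ℕ) (pl x y : ℤ) : ι → ℝ :=
  if pl - ix k x - ix k y ∈ iv (K - k) T then
    ∑ z ∈ iv k (pl - ix k x - ix k y), (hs k z * A y z) • c x z else 0

/-- **The second factor at one `x0` and one scale.** -/
theorem second_GW {k K : ℕ} (hk : 1 ≤ k) (hkK : k ≤ K) (A : ℤ → ℤ → ℝ) (c : ℤ → ℤ → ι → ℝ)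
    (X Y Z pl : ℤ) :
    ∑ x ∈ iv K X, ∑ y ∈ iv K Y, ((4 : ℝ) ^ k)⁻¹ * (Vp A c K Z k pl x y ⬝ᵥ Vp A c K Z k pl x y) =
      GW K Y Z X k pl (fun n2 n1 m => (PA A k k n2 m *
        (hd k * QW k k c (fun _ => (1 : Matrix ι ι ℝ)) n1 m * hd k)).trace) := by
  unfold H103.GW
  rw [plane_swap (iv (K - k) X) (iv (K - k) Y) (iv (K - k) Z) pl (fun n2 n1 m => (PA A k k n2 m *
        (hd k * QW k k c (fun _ => (1 : Matrix ι ι ℝ)) n1 m * hd k)).trace), mul_sum,
    sum_cells hkK X]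
  refine sum_congr rfl fun n1 _ => ?_
  rw [mul_sum]
  have h1 : ∀ x ∈ iv k n1, ∑ y ∈ iv K Y, ((4 : ℝ) ^ k)⁻¹ *
      (Vp A c K Z k pl x y ⬝ᵥ Vp A c K Z k pl x y) = ∑ n2 ∈ iv (K - k) Y, ∑ y ∈ iv k n2,
      ((4 : ℝ) ^ k)⁻¹ * (Vp A c K Z k pl x y ⬝ᵥ Vp A c K Z k pl x y) :=
    fun x _ => sum_cells hkK Y _
  rw [sum_congr rfl h1, sum_comm]
  refine sum_congr rfl fun n2 _ => ?_
  by_cases hm : pl - n1 - n2 ∈ iv (K - k) Z
  · rw [if_pos hm, node_tr hk, mul_sum]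
    refine sum_congr rfl fun x hx => ?_
    rw [mul_sum]
    refine sum_congr rfl fun y hy => ?_
    rw [mem_iv] at hx hy
    unfold Vp
    rw [hx, hy, if_pos hm]
  · rw [if_neg hm, mul_zero]
    refine sum_eq_zero fun x hx => sum_eq_zero fun y hy => ?_
    rw [mem_iv] at hx hy
    unfold Vp
    rw [hx, hy, if_neg hm, dotProduct_zero, mul_zero]

/-- a sign which is constant on the node is taken out -/
theorem Vp_sign (S mu : ℤ → ℤ → ℝ) (A : ℤ → ℤ → ℝ) (c : ℤ → ℤ → ι → ℝ) (K : ℕ) (T : ℤ) (k : ℕ)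
    (pl x y : ℤ) (h : ∀ b, |S x b| ≤ mu x b) :
    Vp A (fun x z => S x (ix k z) • c x z) K T k pl x y ⬝ᵥ
        Vp A (fun x z => S x (ix k z) • c x z) K T k pl x y ≤
      Vp A (fun x z => mu x (ix k z) • c x z) K T k pl x y ⬝ᵥ
        Vp A (fun x z => mu x (ix k z) • c x z) K T k pl x y := by
  have e : ∀ f : ℤ → ℤ → ℝ, Vp A (fun x z => f x (ix k z) • c x z) K T k pl x y =
      f x (pl - ix k x - ix k y) • Vp A c K T k pl x y := by
    intro f
    unfold Vp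
    split_ifs
    · rw [smul_sum]
      refine sum_congr rfl fun z hz => ?_
      beta_reduce
      rw [mem_iv.1 hz, smul_comm]
    · rw [smul_zero]
  rw [e, e]
  simp only [smul_dotProduct, dotProduct_smul, smul_eq_mul]
  have h0 := H483.dot_nonneg (Vp A c K T k pl x y)
  have h1 := h (pl - ix k x - ix k y)
  have h2 : S x (pl - ix k x - ix k y) * S x (pl - ix k x - ix k y) ≤
      mu x (pl - ix k x - ix k y) * mu x (pl - ix k x - ix k y) := by
    rw [← abs_mul_abs_self (S x _)]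
    exact mul_self_le_mul_self (abs_nonneg _) h1
  nlinarith [mul_le_mul_of_nonneg_right h2 h0]

theorem cs_one {a b : ι → ℝ} {k : ℕ} : |((2 : ℝ) ^ k)⁻¹ * (a ⬝ᵥ b)| ≤
    √(a ⬝ᵥ a) * √(((4 : ℝ) ^ k)⁻¹ * (b ⬝ᵥ b)) := by
  have h0 : 0 ≤ a ⬝ᵥ a := H483.dot_nonneg a
  have h1 : 0 ≤ b ⬝ᵥ b := H483.dot_nonneg b
  have h2 : (a ⬝ᵥ b) ^ 2 ≤ (a ⬝ᵥ a) * (b ⬝ᵥ b) := by
    have h3 := sum_mul_sq_le_sq_mul_sq univ a b
    have e1 : a ⬝ᵥ a = ∑ i, a i ^ 2 := by
      unfold dotProduct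
      exact sum_congr rfl fun i _ => by ring
    have e2 : b ⬝ᵥ b = ∑ i, b i ^ 2 := by
      unfold dotProduct
      exact sum_congr rfl fun i _ => by ring
    rw [e1, e2]
    exact h3
  rw [← Real.sqrt_mul h0]
  refine Real.abs_le_sqrt ?_
  have e : ((4 : ℝ) ^ k)⁻¹ = ((2 : ℝ) ^ k)⁻¹ ^ 2 := by
    rw [inv_pow, ← pow_mul, mul_comm k 2, pow_mul]; norm_num
  rw [mul_pow, e]
  have h3 : 0 ≤ ((2 : ℝ) ^ k)⁻¹ ^ 2 := by positivity
  nlinarith [mul_le_mul_of_nonneg_left h2 h3]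

/-- **One `x0`, one scale.** -/
theorem term_le (S : ℤ → ℕ → ℤ → ℤ → ℝ) (o : ℤ) {l : ℝ} (hl : 0 < l) (K : ℕ) (M : Pt)
    (u : ℤ → ℤ → ι → ℝ) (A : FamA) (b C : FamV ι) (x0 : ℤ) {j : ℕ} (hj : j < K) :
    |In K M (p (j + 1) (cP o x0 (j + 1))) (fun y =>
      GA (A x0) (b x0) (C x0) (slG S o l K M u x0) j (j + 1) y -
        GA (A x0) (b x0) (C x0) (slG S o l K M u x0) (j + 1) (j + 1) y)| ≤
    ∑ x ∈ iv K M.1, ∑ y ∈ iv K M.2.1,
      √((MT l (KT l u x) (j + 1) (ix (j + 1) y) *ᵥ b x0 (j + 1) x y) ⬝ᵥ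
        (MT l (KT l u x) (j + 1) (ix (j + 1) y) *ᵥ b x0 (j + 1) x y)) *
      √(((4 : ℝ) ^ (j + 1))⁻¹ * (Vp (fun y z => A x0 (j + 1) z y)
        (fun x z => S x (j + 1) (ix (j + 1) x0) (ix (j + 1) z) • C x0 (j + 1) z x) K M.2.2 (j + 1)
          (cP o x0 (j + 1)) x y ⬝ᵥ Vp (fun y z => A x0 (j + 1) z y)
        (fun x z => S x (j + 1) (ix (j + 1) x0) (ix (j + 1) z) • C x0 (j + 1) z x) K M.2.2 (j + 1)
          (cP o x0 (j + 1)) x y)) := by
  set k := j + 1 with hk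
  have hkK : k ≤ K := hj
  set c := cP o x0 k with hc
  have h1 : In K M (p k c) (fun y =>
      GA (A x0) (b x0) (C x0) (slG S o l K M u x0) j k y -
        GA (A x0) (b x0) (C x0) (slG S o l K M u x0) k k y) =
      ∑ x ∈ iv K M.1, ∑ y ∈ iv K M.2.1, hs k x0 * (((2 : ℝ) ^ k)⁻¹ *
        ((MT l (KT l u x) k (ix k y) *ᵥ b x0 k x y) ⬝ᵥ Vp (fun y z => A x0 k z y)
        (fun x z => S x k (ix k x0) (ix k z) • C x0 k z x) K M.2.2 k c x y)) := by
    unfold H352.In PL.cb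
    rw [sum_product]
    refine sum_congr rfl fun x _ => ?_
    rw [sum_product]
    refine sum_congr rfl fun y hy => ?_
    have hsym : ∀ (q : ℤ) (v w : ι → ℝ), v ⬝ᵥ (MT l (KT l u x) k q *ᵥ w) =
        (MT l (KT l u x) k q *ᵥ v) ⬝ᵥ w := by
      intro q v w
      have e := H771.MT_symm (tr_T hl K u x) k q
      rw [dotProduct_mulVec, ← mulVec_transpose, e]
    -- the slot difference
    have hstep : ∀ z : ℤ, ix k x + ix k y + ix k z = c →
        slG S o l K M u x0 j z x - slG S o l K M u x0 k z x =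
        (S x k (ix k x0) (ix k z) * (hs k x0 * hs k z)) • MT l (KT l u x) k (ix k y) := by
      intro z hz
      have e1 : slG S o l K M u x0 j z x = Lm (MxR l K M u x) o x (S x) k x0 z +
          slG S o l K M u x0 k z x := by
        unfold H924.slG H841.Rm
        rw [sum_eq_sum_Ico_succ_bot hj]
      rw [e1, add_sub_cancel_right]
      unfold H841.Lm
      congr 1
      have e2 : H922.ck o x z k - ix k x0 = ix k y := by
        have h3 : c = o - 2 - ix k x0 := rfl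
        unfold H922.ck
        linarith
      rw [e2]
      unfold H58.MxR
      rw [if_pos]
      rw [ix_ix, Nat.add_sub_cancel' hkK]
      exact mem_iv.1 hy
    have h2 : ∀ z, p k c (x, y, z) * (GA (A x0) (b x0) (C x0) (slG S o l K M u x0) j k (x, y, z) -
        GA (A x0) (b x0) (C x0) (slG S o l K M u x0) k k (x, y, z)) =
        if ix k z = c - ix k x - ix k y then hs k x0 * (((2 : ℝ) ^ k)⁻¹ *
          ((MT l (KT l u x) k (ix k y) *ᵥ b x0 k x y) ⬝ᵥ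
            ((hs k z * A x0 k z y) • (S x k (ix k x0) (ix k z) • C x0 k z x)))) else 0 := by
      intro z
      unfold H352.p
      by_cases hz : ix k z = c - ix k x - ix k y
      · have hz' : ix k x + ix k y + ix k z = c := by linarith
        rw [if_pos hz', if_pos hz]
        unfold H677.GA
        have e3 : A x0 k z y * (b x0 k x y ⬝ᵥ slG S o l K M u x0 j z x *ᵥ C x0 k z x) -
            A x0 k z y * (b x0 k x y ⬝ᵥ slG S o l K M u x0 k z x *ᵥ C x0 k z x) =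
            A x0 k z y * (b x0 k x y ⬝ᵥ (slG S o l K M u x0 j z x - slG S o l K M u x0 k z x) *ᵥ
              C x0 k z x) := by
          rw [sub_mulVec, dotProduct_sub]
          ring
        show ((2 : ℝ) ^ k)⁻¹ * (A x0 k z y * (b x0 k x y ⬝ᵥ slG S o l K M u x0 j z x *ᵥ C x0 k z x) -
            A x0 k z y * (b x0 k x y ⬝ᵥ slG S o l K M u x0 k z x *ᵥ C x0 k z x)) = _
        rw [e3, hstep z hz', smul_mulVec, dotProduct_smul, hsym, dotProduct_smul, dotProduct_smul]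
        simp only [smul_eq_mul]
        ring
      · rw [if_neg hz, if_neg (fun h => hz (by
          change ix k x + ix k y + ix k z = c at h
          linarith)), zero_mul]
    rw [sum_congr rfl fun z _ => h2 z, ← sum_filter]
    unfold Vp
    by_cases hm : c - ix k x - ix k y ∈ iv (K - k) M.2.2
    · rw [if_pos hm, dotProduct_sum, mul_sum, mul_sum]
      refine sum_congr ?_ fun _ _ => rfl
      ext z
      rw [mem_filter, mem_iv, mem_iv]
      constructor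
      · exact fun h => h.2
      · intro h
        refine ⟨?_, h⟩
        rw [mem_iv, ← h, ix_ix, Nat.add_sub_cancel' hkK] at hm
        exact hm
    · rw [if_neg hm, dotProduct_zero, mul_zero, mul_zero]
      have e : (iv K M.2.2).filter (fun z => ix k z = c - ix k x - ix k y) = ∅ := by
        rw [filter_eq_empty_iff]
        intro z hz h
        refine hm ?_
        rw [mem_iv, ← h, ix_ix, Nat.add_sub_cancel' hkK]
        exact mem_iv.1 hz
      rw [e, sum_empty]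
  rw [h1]
  refine (abs_sum_le_sum_abs _ _).trans (sum_le_sum fun x _ => ?_)
  refine (abs_sum_le_sum_abs _ _).trans (sum_le_sum fun y _ => ?_)
  rw [abs_mul, PL.abs_hs, one_mul]
  exact cs_one

theorem cs_sum {α : Type*} (s : Finset α) {f g h : α → ℝ} (hf : ∀ i ∈ s, 0 ≤ f i)
    (hg : ∀ i ∈ s, 0 ≤ g i) (hh : ∀ i ∈ s, h i ≤ √(f i) * √(g i)) :
    ∑ i ∈ s, h i ≤ √(∑ i ∈ s, f i) * √(∑ i ∈ s, g i) := by
  refine (sum_le_sum hh).trans ?_
  have h1 := Finset.sum_mul_sq_le_sq_mul_sq s (fun i => √(f i)) (fun i => √(g i))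
  have e1 : ∑ i ∈ s, √(f i) ^ 2 = ∑ i ∈ s, f i := sum_congr rfl fun i hi => Real.sq_sqrt (hf i hi)
  have e2 : ∑ i ∈ s, √(g i) ^ 2 = ∑ i ∈ s, g i := sum_congr rfl fun i hi => Real.sq_sqrt (hg i hi)
  rw [e1, e2] at h1
  rw [← Real.sqrt_mul (sum_nonneg hf)]
  exact Real.le_sqrt_of_sq_le h1

/-- **The Abel sums of a slot with row-level signs, absolute values.** `mu` = any majorant of the
signs. -/
theorem qA_cs (S mu : ℤ → ℕ → ℤ → ℤ → ℝ) (hS : ∀ x k a b, |S x k a b| ≤ mu x k a b) (o : ℤ) {l : ℝ}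
    (hl : 0 < l) (K : ℕ) (M : Pt) (u : ℤ → ℤ → ι → ℝ) (A : FamA) (b C : FamV ι) :
    qA o K M (slG S o l K M u) A b C ≤
      √(∑ t ∈ rt M, ∑ x0 ∈ iv K t, ∑ k ∈ range K, ∑ x ∈ iv K M.1, ∑ y ∈ iv K M.2.1,
        (MT l (KT l u x) (k + 1) (ix (k + 1) y) *ᵥ b x0 (k + 1) x y) ⬝ᵥ
          (MT l (KT l u x) (k + 1) (ix (k + 1) y) *ᵥ b x0 (k + 1) x y)) *
      √(∑ t ∈ rt M, ∑ x0 ∈ iv K t, ∑ k ∈ range K,
        GW K M.2.1 M.2.2 M.1 (k + 1) (cP o x0 (k + 1)) (fun n2 n1 m =>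
          (PA (fun y z => A x0 (k + 1) z y) (k + 1) (k + 1) n2 m * (hd (k + 1) *
            QW (k + 1) (k + 1) (fun x z => Cm mu C x0 (k + 1) z x)
              (fun _ => (1 : Matrix ι ι ℝ)) n1 m * hd (k + 1))).trace)) := by
  set V2 : ℤ → ℕ → ℤ → ℤ → ℝ := fun x0 k x y => ((4 : ℝ) ^ (k + 1))⁻¹ *
    (Vp (fun y z => A x0 (k + 1) z y) (fun x z => Cm mu C x0 (k + 1) z x) K M.2.2 (k + 1)
          (cP o x0 (k + 1)) x y ⬝ᵥ Vp (fun y z => A x0 (k + 1) z y)
        (fun x z => Cm mu C x0 (k + 1) z x) K M.2.2 (k + 1) (cP o x0 (k + 1)) x y) with hV2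
  have hn1 : ∀ (x0 : ℤ) (k : ℕ) (x y : ℤ),
      0 ≤ (MT l (KT l u x) (k + 1) (ix (k + 1) y) *ᵥ b x0 (k + 1) x y) ⬝ᵥ
          (MT l (KT l u x) (k + 1) (ix (k + 1) y) *ᵥ b x0 (k + 1) x y) :=
    fun _ _ _ _ => H483.dot_nonneg _
  have hn2 : ∀ (x0 : ℤ) (k : ℕ) (x y : ℤ), 0 ≤ V2 x0 k x y := fun x0 k x y =>
    mul_nonneg (by positivity) (H483.dot_nonneg _)
  have hG' : ∑ t ∈ rt M, ∑ x0 ∈ iv K t, ∑ k ∈ range K,
        GW K M.2.1 M.2.2 M.1 (k + 1) (cP o x0 (k + 1)) (fun n2 n1 m =>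
          (PA (fun y z => A x0 (k + 1) z y) (k + 1) (k + 1) n2 m * (hd (k + 1) *
            QW (k + 1) (k + 1) (fun x z => Cm mu C x0 (k + 1) z x)
              (fun _ => (1 : Matrix ι ι ℝ)) n1 m * hd (k + 1))).trace) =
      ∑ t ∈ rt M, ∑ x0 ∈ iv K t, ∑ k ∈ range K, ∑ x ∈ iv K M.1, ∑ y ∈ iv K M.2.1,
        V2 x0 k x y :=
    sum_congr rfl fun t _ => sum_congr rfl fun x0 _ => sum_congr rfl fun k hk =>
      (second_GW (by omega) (by have := mem_range.1 hk; omega) _ _ _ _ _ _).symm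
  rw [hG']
  unfold H924.qA
  refine cs_sum _ (fun t _ => sum_nonneg fun x0 _ => sum_nonneg fun k _ => sum_nonneg fun x _ =>
    sum_nonneg fun y _ => hn1 x0 k x y) (fun t _ => sum_nonneg fun x0 _ => sum_nonneg fun k _ =>
    sum_nonneg fun x _ => sum_nonneg fun y _ => hn2 x0 k x y) fun t _ => ?_
  refine cs_sum _ (fun x0 _ => sum_nonneg fun k _ => sum_nonneg fun x _ =>
    sum_nonneg fun y _ => hn1 x0 k x y) (fun x0 _ => sum_nonneg fun k _ =>
    sum_nonneg fun x _ => sum_nonneg fun y _ => hn2 x0 k x y) fun x0 _ => ?_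
  refine (abs_sum_le_sum_abs _ _).trans ?_
  refine cs_sum _ (fun k _ => sum_nonneg fun x _ =>
    sum_nonneg fun y _ => hn1 x0 k x y) (fun k _ =>
    sum_nonneg fun x _ => sum_nonneg fun y _ => hn2 x0 k x y) fun k hk => ?_
  refine (term_le S o hl K M u A b C x0 (mem_range.1 hk)).trans ?_
  refine cs_sum _ (fun x _ => sum_nonneg fun y _ => hn1 x0 k x y) (fun x _ => sum_nonneg fun y _ =>
    hn2 x0 k x y) fun x _ => ?_
  refine cs_sum _ (fun y _ => hn1 x0 k x y) (fun y _ => hn2 x0 k x y) fun y _ => ?_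
  refine mul_le_mul_of_nonneg_left (Real.sqrt_le_sqrt ?_) (Real.sqrt_nonneg _)
  exact mul_le_mul_of_nonneg_left (Vp_sign (fun x b => S x (k + 1) (ix (k + 1) x0) b)
    (fun x b => mu x (k + 1) (ix (k + 1) x0) b) (fun y z => A x0 (k + 1) z y)
    (fun x z => C x0 (k + 1) z x) K M.2.2 (k + 1) (cP o x0 (k + 1)) x y
    fun b => hS x (k + 1) (ix (k + 1) x0) b) (by positivity)

end

end Vale.Agent.P141.H451.Star
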